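import Vale.Agent.P050.R3.H904.RemoveRows
import Vale.Agent.P050.TDefs

set_option linter.all false

/-!
# P050, dense targets: from finite kernels to graphs
-/

open Finset

namespace Vale.Agent.P050.Dense

open Vale.Agent.P050

/-- the adjacency kernel -/
noncomputable def adjK {X : Type*} (G : SimpleGraph X) [DecidableRel G.Adj] (x y : X) : ℝ :=
  if G.Adj x y then 1 else 0

theorem adjK_symm {X : Type*} (G : SimpleGraph X) [DecidableRel G.Adj] (x y : X) :
    adjK G x y = adjK G y x := by
  unfold adjK
  simp only [G.adj_comm]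

theorem pden_adjK {X : Type*} [Fintype X] (G : SimpleGraph X) [DecidableRel G.Adj] :
    pden (adjK G) = edgeDensity G := by
  classical
  have h1 : ∑ u, ∑ v, adjK G u v = 2 * (Nat.card G.edgeSet : ℝ) := by
    rw [Nat.card_eq_fintype_card, ← SimpleGraph.edgeFinset_card]
    have h3 := G.sum_degrees_eq_twice_card_edges
    have h4 : ((∑ u, G.degree u : ℕ) : ℝ) = ((2 * G.edgeFinset.card : ℕ) : ℝ) := by
      rw [h3]
    push_cast at h4
    rw [← h4]
    refine Finset.sum_congr rfl fun u _ => ?_
    unfold adjK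
    rw [Finset.sum_boole, ← SimpleGraph.card_neighborFinset_eq_degree]
    congr 2
    ext v
    simp
  rw [pden, edgeDensity, h1, Nat.card_eq_fintype_card (α := X)]

theorem tden_adjK {V : Type*} [Fintype V] [DecidableEq V] (H : SimpleGraph V)
    [DecidableRel H.Adj] {X : Type*} [Fintype X] (G : SimpleGraph X) [DecidableRel G.Adj] :
    tden H (adjK G) (adjK_symm G) = homDensity H G := by
  classical
  have h1 : ∀ z : V → X, ∏ e ∈ H.edgeFinset, ev (adjK G) (adjK_symm G) z e
      = if (∀ u v, H.Adj u v → G.Adj (z u) (z v)) then 1 else 0 := by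
    intro z
    split_ifs with h
    · refine Finset.prod_eq_one fun e he => ?_
      induction e using Sym2.ind with
      | _ u v =>
        rw [SimpleGraph.mem_edgeFinset, SimpleGraph.mem_edgeSet] at he
        show adjK G (z u) (z v) = 1
        rw [adjK, if_pos (h u v he)]
    · push Not at h
      obtain ⟨u, v, huv, hn⟩ := h
      refine Finset.prod_eq_zero (i := s(u, v)) (by
        rw [SimpleGraph.mem_edgeFinset, SimpleGraph.mem_edgeSet]; exact huv) ?_
      show adjK G (z u) (z v) = 0
      rw [adjK, if_neg hn]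
  rw [tden, homDensity, Nat.card_eq_fintype_card (α := X), Nat.card_eq_fintype_card (α := V)]
  congr 1
  simp_rw [h1]
  rw [Finset.sum_boole]
  congr 1
  rw [← Fintype.card_subtype, ← Nat.card_eq_fintype_card]
  refine Nat.card_congr ⟨fun z => ⟨z.1, fun {u v} h => z.2 u v h⟩,
    fun f => ⟨fun v => f v, fun u v h => f.map_rel h⟩, ?_, ?_⟩
  · intro z
    rfl
  · intro f
    rfl

/-- invariance of the densities under renaming of the vertices of the target -/
theorem homDensity_iso {V U U' : Type*} (H : SimpleGraph V) {G : SimpleGraph U}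
    {G' : SimpleGraph U'} (φ : G ≃g G') : homDensity H G = homDensity H G' := by
  rw [homDensity, homDensity, Nat.card_congr φ.toEquiv]
  congr 2
  refine Nat.card_congr ⟨fun f => φ.toHom.comp f, fun f => φ.symm.toHom.comp f, ?_, ?_⟩
  · intro f; ext v; simp
  · intro f; ext v; simp

theorem edgeDensity_iso {U U' : Type*} {G : SimpleGraph U}
    {G' : SimpleGraph U'} (φ : G ≃g G') : edgeDensity G = edgeDensity G' := by
  rw [edgeDensity, edgeDensity, Nat.card_congr φ.toEquiv, Nat.card_congr φ.mapEdgeSet]

/-- the inequality for all kernels of large mean gives the inequality for all graphs of large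
edge density -/
theorem graph_of_kernel {V : Type*} [Fintype V] [DecidableEq V] (H : SimpleGraph V)
    [DecidableRel H.Adj] {q : ℝ}
    (h : ∀ (n : ℕ) (W : Fin n → Fin n → ℝ) (hs : ∀ x y, W x y = W y x), 0 < n →
      (∀ x y, 0 ≤ W x y) → (∀ x y, W x y ≤ 1) → q ≤ pden W →
      pden W ^ H.edgeFinset.card ≤ tden H W hs)
    {U : Type*} [Finite U] [Nonempty U] (G : SimpleGraph U) (hq : q ≤ edgeDensity G) :
    edgeDensity G ^ Nat.card H.edgeSet ≤ homDensity H G := by
  classical
  have := Fintype.ofFinite U
  set n := Fintype.card U with hn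
  let φ : U ≃ Fin n := Fintype.equivFin U
  let G' : SimpleGraph (Fin n) := G.map φ.toEmbedding
  let ψ : G ≃g G' := SimpleGraph.Iso.map φ G
  rw [homDensity_iso H ψ, edgeDensity_iso ψ, ← tden_adjK, ← pden_adjK,
    Nat.card_eq_fintype_card, ← SimpleGraph.edgeFinset_card]
  refine h n (adjK G') (adjK_symm G') Fintype.card_pos (fun x y => ?_) (fun x y => ?_) ?_
  · unfold adjK; split_ifs <;> norm_num
  · unfold adjK; split_ifs <;> norm_num
  · rw [pden_adjK, ← edgeDensity_iso ψ]
    exact hq

/-- **The row condition can be dropped**: if the Sidorenko inequality for `H` holds for all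
kernels with values in `[0, 1]` all of whose row averages are at least `1 - θ`, then it holds for
all graphs of edge density at least `1 - ε`, where `12 D ε ≤ θ`. -/
theorem graph_of_rows {V : Type} [Fintype V] [DecidableEq V] (H : SimpleGraph V)
    [DecidableRel H.Adj] {D : ℕ} (hD : ∀ v, H.degree v ≤ D) {θ ε : ℝ} (hε0 : 0 ≤ ε)
    (hε : 12 * D * ε ≤ θ) (hε8 : 8 * D * ε ≤ 1)
    (hgood : ∀ (n : ℕ) (W : Fin n → Fin n → ℝ) (hs : ∀ x y, W x y = W y x), 0 < n →
      (∀ x y, 0 ≤ W x y) → (∀ x y, W x y ≤ 1) → (∀ x, (1 - θ) * n ≤ ∑ y, W x y) →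
      pden W ^ H.edgeFinset.card ≤ tden H W hs)
    {U : Type*} [Finite U] [Nonempty U] (G : SimpleGraph U) (hp : 1 - ε ≤ edgeDensity G) :
    edgeDensity G ^ Nat.card H.edgeSet ≤ homDensity H G := by
  refine graph_of_kernel H (fun n W hs hn h0 h1 hq => ?_) G hp
  have : Nonempty (Fin n) := ⟨⟨0, hn⟩⟩
  exact remove_rows H hD hε0 hε hε8 hgood W hs h0 h1 hq

end Vale.Agent.P050.Dense
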