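import Vale.Agent.P050.R3.H904.RemoveRows

set_option linter.all false

/-!
# P050, dense targets: from finite kernels to measurable kernels, by sampling
-/

open MeasureTheory Finset

namespace Vale.Agent.P050.Dense

open Vale.Agent.P050

/-- composition with an injection maps the product measure to the product measure -/
theorem map_comp_inj {ι V Ω : Type*} [Fintype ι] [Fintype V] [MeasurableSpace Ω]
    (μ : Measure Ω) [IsProbabilityMeasure μ] (z : V → ι) (hz : Function.Injective z) :
    MeasurePreserving (fun (ω : ι → Ω) v => ω (z v)) (Measure.pi fun _ : ι => μ)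
      (Measure.pi fun _ : V => μ) := by
  classical
  have hm : Measurable (fun (ω : ι → Ω) v => ω (z v)) :=
    measurable_pi_iff.2 fun v => measurable_pi_apply _
  refine ⟨hm, ?_⟩
  symm
  apply Measure.pi_eq
  intro s hs
  rw [Measure.map_apply hm (MeasurableSet.univ_pi hs)]
  set s' : ι → Set Ω := fun i => if h : ∃ v, z v = i then s h.choose else Set.univ with hs'
  have hz' : ∀ v, s' (z v) = s v := by
    intro v
    have h : ∃ v', z v' = z v := ⟨v, rfl⟩
    simp only [hs', dif_pos h]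
    rw [hz h.choose_spec]
  have h1 : (fun (ω : ι → Ω) v => ω (z v)) ⁻¹' (Set.univ.pi s) = Set.univ.pi s' := by
    ext ω
    simp only [Set.mem_preimage, Set.mem_univ_pi]
    constructor
    · intro h i
      by_cases hi : ∃ v, z v = i
      · obtain ⟨v, rfl⟩ := hi
        rw [hz']
        exact h v
      · simp only [hs', dif_neg hi, Set.mem_univ]
    · intro h v
      have := h (z v)
      rwa [hz'] at this
  rw [h1, Measure.pi_pi]
  have h2 : ∏ i, μ (s' i) = ∏ i ∈ univ.image z, μ (s' i) := by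
    symm
    refine Finset.prod_subset (Finset.subset_univ _) fun i _ hi => ?_
    have : ¬ ∃ v, z v = i := fun ⟨v, hv⟩ => hi (Finset.mem_image.2 ⟨v, Finset.mem_univ _, hv⟩)
    simp only [hs', dif_neg this, measure_univ]
  rw [h2, Finset.prod_image fun a _ b _ h => hz h]
  exact Finset.prod_congr rfl fun v _ => by rw [hz']

section sample

variable {Ω : Type*} [MeasurableSpace Ω] (W : Ω → Ω → ℝ)

/-- the kernel sampled at the points `ω i`, with ones on the diagonal -/
noncomputable def SW {n : ℕ} (ω : Fin n → Ω) (i j : Fin n) : ℝ :=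
  if i = j then 1 else W (ω i) (ω j)

variable {W}

theorem SW_symm (hW : ∀ s t, W s t = W t s) {n : ℕ} (ω : Fin n → Ω) (i j : Fin n) :
    SW W ω i j = SW W ω j i := by
  unfold SW
  by_cases h : i = j
  · subst h; rfl
  · rw [if_neg h, if_neg (Ne.symm h), hW]

theorem SW_nonneg (h0 : ∀ s t, 0 ≤ W s t) {n : ℕ} (ω : Fin n → Ω) (i j : Fin n) :
    0 ≤ SW W ω i j := by
  unfold SW
  split_ifs
  · norm_num
  · exact h0 _ _

theorem SW_le (h1 : ∀ s t, W s t ≤ 1) {n : ℕ} (ω : Fin n → Ω) (i j : Fin n) :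
    SW W ω i j ≤ 1 := by
  unfold SW
  split_ifs
  · exact le_rfl
  · exact h1 _ _

theorem bm_of01 (hm : Measurable (Function.uncurry W)) (h0 : ∀ s t, 0 ≤ W s t)
    (h1 : ∀ s t, W s t ≤ 1) : BM (Function.uncurry W) :=
  ⟨hm, 1, fun z => by
    rw [abs_le]
    exact ⟨by have := h0 z.1 z.2; simp only [Function.uncurry]; linarith, h1 z.1 z.2⟩⟩

theorem bm_pair (hb : BM (Function.uncurry W)) {ι : Type*} [Fintype ι] (i j : ι) :
    BM (fun ω : ι → Ω => W (ω i) (ω j)) :=
  hb.comp (f := Function.uncurry W) (g := fun x : ι → Ω => (x i, x j))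
      ((measurable_pi_apply i).prodMk (measurable_pi_apply j))

theorem bm_SW (hb : BM (Function.uncurry W)) {n : ℕ} (i j : Fin n) :
    BM (fun ω : Fin n → Ω => SW W ω i j) := by
  unfold SW
  by_cases h : i = j
  · simp only [if_pos h]; exact BM.const 1
  · simp only [if_neg h]; exact bm_pair hb i j

variable {V : Type} [Fintype V] [DecidableEq V]

/-- the number of non-injective maps -/
theorem noninj_le {n : ℕ} (hn : 0 < n) :
    ∑ z : V → Fin n, (if Function.Injective z then (0 : ℝ) else 1)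
      ≤ (n : ℝ) ^ Fintype.card V * ((Fintype.card V : ℝ) ^ 2 / n) := by
  classical
  have hn' : (0 : ℝ) < n := by exact_mod_cast hn
  have h1 : ∀ z : V → Fin n, (if Function.Injective z then (0 : ℝ) else 1)
      ≤ ∑ u : V, ∑ v : V, if u ≠ v then (if z u = z v then (1 : ℝ) else 0) else 0 := by
    intro z
    have hnn : ∀ u ∈ (univ : Finset V), ∀ v ∈ (univ : Finset V),
        0 ≤ (if u ≠ v then (if z u = z v then (1 : ℝ) else 0) else 0) := by
      intro u _ v _
      split_ifs <;> norm_num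
    split_ifs with h
    · exact Finset.sum_nonneg fun u hu => Finset.sum_nonneg fun v hv => hnn u hu v hv
    · unfold Function.Injective at h
      push Not at h
      obtain ⟨u, v, huv, hne⟩ := h
      calc (1 : ℝ) = if u ≠ v then (if z u = z v then (1 : ℝ) else 0) else 0 := by
            rw [if_pos hne, if_pos huv]
        _ ≤ ∑ v : V, if u ≠ v then (if z u = z v then (1 : ℝ) else 0) else 0 :=
            Finset.single_le_sum (f := fun v => if u ≠ v then (if z u = z v then (1 : ℝ) else 0)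
              else 0) (fun v hv => hnn u (Finset.mem_univ _) v hv) (Finset.mem_univ v)
        _ ≤ _ := Finset.single_le_sum (f := fun u => ∑ v : V, if u ≠ v then
              (if z u = z v then (1 : ℝ) else 0) else 0)
              (fun u hu => Finset.sum_nonneg fun v hv => hnn u hu v hv) (Finset.mem_univ u)
  have h2 : ∀ u v : V, ∑ z : V → Fin n,
      (if u ≠ v then (if z u = z v then (1 : ℝ) else 0) else 0)
        ≤ (n : ℝ) ^ Fintype.card V / n := by
    intro u v
    by_cases huv : u = v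
    · subst huv
      simp only [ne_eq, not_true_eq_false, if_false, Finset.sum_const_zero]
      positivity
    · have h := MinRed.indep2 (V := V) (U := Fin n) huv (fun a b => if a = b then (1 : ℝ) else 0)
        (fun _ => 1) (fun _ _ => rfl) (fun _ _ => rfl)
      simp only [mul_one, Fintype.card_fin, Finset.sum_ite_eq, Finset.mem_univ, if_true,
        Finset.sum_const, Finset.card_univ, nsmul_eq_mul, Fintype.card_fun, Nat.cast_pow] at h
      simp only [ne_eq, huv, not_false_eq_true, if_true]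
      rw [le_div_iff₀ hn']
      have h3 : (n : ℝ) * (∑ z : V → Fin n, (if z u = z v then (1 : ℝ) else 0) * n)
          = (n : ℝ) * (n : ℝ) ^ Fintype.card V := by
        rw [← h, ← Finset.sum_mul]; ring
      have h4 := mul_left_cancel₀ hn'.ne' h3
      rw [← Finset.sum_mul] at h4
      exact h4.le
  calc ∑ z : V → Fin n, (if Function.Injective z then (0 : ℝ) else 1)
      ≤ ∑ z : V → Fin n, ∑ u : V, ∑ v : V,
          (if u ≠ v then (if z u = z v then (1 : ℝ) else 0) else 0) :=
        Finset.sum_le_sum fun z _ => h1 z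
    _ = ∑ u : V, ∑ v : V, ∑ z : V → Fin n,
          (if u ≠ v then (if z u = z v then (1 : ℝ) else 0) else 0) := by
        rw [Finset.sum_comm]
        exact Finset.sum_congr rfl fun u _ => Finset.sum_comm
    _ ≤ ∑ u : V, ∑ v : V, (n : ℝ) ^ Fintype.card V / n :=
        Finset.sum_le_sum fun u _ => Finset.sum_le_sum fun v _ => h2 u v
    _ = _ := by
        simp only [Finset.sum_const, Finset.card_univ, nsmul_eq_mul]
        ring

/-- the mean of the densities of the samples -/
theorem sample_le (μ : Measure Ω) [IsProbabilityMeasure μ] (hb : BM (Function.uncurry W))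
    (h0 : ∀ s t, 0 ≤ W s t) (h1 : ∀ s t, W s t ≤ 1) (S : Finset (V × V))
    (hS : ∀ e ∈ S, e.1 ≠ e.2) {n : ℕ} (hn : 0 < n) :
    ∫ ω, MinRed.Z (SW W ω) S / (n : ℝ) ^ Fintype.card V ∂(piM (Fin n) μ)
      ≤ ∫ x, ∏ e ∈ S, W (x e.1) (x e.2) ∂(piM V μ) + (Fintype.card V : ℝ) ^ 2 / n := by
  classical
  have hn' : (0 : ℝ) < n := by exact_mod_cast hn
  set t := ∫ x, ∏ e ∈ S, W (x e.1) (x e.2) ∂(piM V μ) with ht
  have ht0 : 0 ≤ t := integral_nonneg fun x => Finset.prod_nonneg fun e _ => h0 _ _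
  have hbz : ∀ z : V → Fin n, BM (fun ω : Fin n → Ω => ∏ e ∈ S, SW W ω (z e.1) (z e.2)) :=
    fun z => BM.finprod S fun e _ => bm_SW hb _ _
  have hz : ∀ z : V → Fin n, ∫ ω, ∏ e ∈ S, SW W ω (z e.1) (z e.2) ∂(piM (Fin n) μ)
      ≤ t + (if Function.Injective z then (0 : ℝ) else 1) := by
    intro z
    by_cases hinj : Function.Injective z
    · rw [if_pos hinj, add_zero]
      refine le_of_eq ?_
      have hmp : MeasurePreserving (fun (ω : Fin n → Ω) v => ω (z v)) (piM (Fin n) μ)
        (piM V μ) := map_comp_inj μ z hinj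
      rw [ht, ← hmp.map_eq, integral_map hmp.measurable.aemeasurable
        (BM.finprod S fun e _ => bm_pair hb e.1 e.2).meas.aestronglyMeasurable]
      refine integral_congr_ae (Filter.Eventually.of_forall fun ω => ?_)
      refine Finset.prod_congr rfl fun e he => ?_
      rw [SW, if_neg fun h => hS e he (hinj h)]
    · rw [if_neg hinj]
      have : ∫ ω, ∏ e ∈ S, SW W ω (z e.1) (z e.2) ∂(piM (Fin n) μ) ≤ ∫ ω, (1 : ℝ) ∂(piM (Fin n) μ) :=
        integral_mono ((hbz z).integrable _) (integrable_const _) fun ω =>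
          Finset.prod_le_one (fun e _ => SW_nonneg h0 ω _ _) fun e _ => SW_le h1 ω _ _
      simp only [integral_const, probReal_univ, smul_eq_mul, mul_one] at this
      linarith
  rw [integral_div]
  unfold MinRed.Z
  rw [integral_finset_sum _ fun z _ => (hbz z).integrable _, div_le_iff₀ (by positivity)]
  refine (Finset.sum_le_sum fun z _ => hz z).trans ?_
  rw [Finset.sum_add_distrib]
  have := noninj_le (V := V) hn
  simp only [Finset.sum_const, Finset.card_univ, nsmul_eq_mul, Fintype.card_fun,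
    Fintype.card_fin, Nat.cast_pow]
  calc _ ≤ (n : ℝ) ^ Fintype.card V * t + (n : ℝ) ^ Fintype.card V *
        ((Fintype.card V : ℝ) ^ 2 / n) := by linarith
    _ = _ := by ring

/-- the first moment of the mean of the sample -/
theorem sample_mean (μ : Measure Ω) [IsProbabilityMeasure μ] (hb : BM (Function.uncurry W))
    (h0 : ∀ s t, 0 ≤ W s t) (h1 : ∀ s t, W s t ≤ 1) {n : ℕ} (hn : 0 < n) :
    ∫ s, ∫ t, W s t ∂μ ∂μ ≤ ∫ ω, pden (SW W ω) ∂(piM (Fin n) μ) := by
  have hn' : (0 : ℝ) < n := by exact_mod_cast hn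
  set p := ∫ s, ∫ t, W s t ∂μ ∂μ with hp
  have hp1 : p ≤ 1 := by
    have h2 : ∀ s, ∫ t, W s t ∂μ ≤ 1 := by
      intro s
      have : ∫ t, W s t ∂μ ≤ ∫ t, (1 : ℝ) ∂μ := integral_mono
        ((hb.comp (g := fun t : Ω => (s, t)) measurable_prodMk_left).integrable _)
        (integrable_const _) fun t => h1 s t
      simpa using this
    have : p ≤ ∫ s, (1 : ℝ) ∂μ := integral_mono ((hb.integral_right μ).integrable _)
      (integrable_const _) h2
    simpa using this
  have hij : ∀ i j : Fin n, p ≤ ∫ ω, SW W ω i j ∂(piM (Fin n) μ) := by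
    intro i j
    by_cases h : i = j
    · simp only [SW, if_pos h, integral_const, probReal_univ, smul_eq_mul, mul_one]
      exact hp1
    · simp only [SW, if_neg h]
      rw [integral_eval2 μ h hb]
  simp only [pden, Fintype.card_fin]
  rw [integral_div, le_div_iff₀ (by positivity),
    integral_finset_sum _ fun i _ => (BM.finsum univ fun j _ => bm_SW hb i j).integrable _]
  have h3 : ∀ i : Fin n, ∫ ω, ∑ j, SW W ω i j ∂(piM (Fin n) μ)
      = ∑ j, ∫ ω, SW W ω i j ∂(piM (Fin n) μ) := fun i =>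
    integral_finset_sum _ fun j _ => (bm_SW hb i j).integrable _
  simp only [h3]
  calc p * (n : ℝ) ^ 2 = ∑ _i : Fin n, ∑ _j : Fin n, p := by
        simp only [Finset.sum_const, Finset.card_univ, Fintype.card_fin, nsmul_eq_mul]; ring
    _ ≤ _ := Finset.sum_le_sum fun i _ => Finset.sum_le_sum fun j _ => hij i j

theorem Z_two {U : Type} [Fintype U] [Nonempty U] (F : U → U → ℝ) :
    MinRed.Z F ({((0 : Fin 4), (1 : Fin 4)), (2, 3)} : Finset (Fin 4 × Fin 4))
      = (∑ a, ∑ b, F a b) ^ 2 := by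
  classical
  have hN : (0 : ℝ) < Fintype.card U := by exact_mod_cast Fintype.card_pos
  have e1 := MinRed.indep2 (V := Fin 4) (U := U) (u := 0) (v := 1) (by decide) F
    (fun x => F (x 2) (x 3)) (fun x a => by simp [Function.update]) (fun x a => by simp [Function.update])
  have e2 := MinRed.indep2 (V := Fin 4) (U := U) (u := 2) (v := 3) (by decide) F
    (fun x => 1) (fun x a => rfl) (fun x a => rfl)
  simp only [mul_one, Finset.sum_const, Finset.card_univ, nsmul_eq_mul, Fintype.card_fun,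
    Fintype.card_fin, Nat.cast_pow] at e2
  rw [MinRed.Z]
  have e3 : ∀ x : Fin 4 → U, ∏ e ∈ ({((0 : Fin 4), (1 : Fin 4)), (2, 3)} : Finset (Fin 4 × Fin 4)),
      F (x e.1) (x e.2) = F (x 0) (x 1) * F (x 2) (x 3) := by
    intro x
    rw [Finset.prod_insert (by simp), Finset.prod_singleton]
  simp only [e3]
  have e4 : (Fintype.card U : ℝ) ^ 4 * ∑ x : Fin 4 → U, F (x 0) (x 1) * F (x 2) (x 3)
      = (Fintype.card U : ℝ) ^ 4 * (∑ a, ∑ b, F a b) ^ 2 := by
    calc _ = (Fintype.card U : ℝ) ^ 2 * ((Fintype.card U : ℝ) ^ 2 *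
          ∑ x : Fin 4 → U, F (x 0) (x 1) * F (x 2) (x 3)) := by ring
      _ = (∑ a, ∑ b, F a b) * ((Fintype.card U : ℝ) ^ 2 * ∑ x : Fin 4 → U, F (x 2) (x 3)) := by
          rw [e1]; ring
      _ = _ := by rw [e2]; ring
  exact mul_left_cancel₀ (by positivity) e4

/-- the second moment of the mean of the sample -/
theorem sample_sq (μ : Measure Ω) [IsProbabilityMeasure μ] (hb : BM (Function.uncurry W))
    (h0 : ∀ s t, 0 ≤ W s t) (h1 : ∀ s t, W s t ≤ 1) {n : ℕ} (hn : 0 < n) :
    ∫ ω, pden (SW W ω) ^ 2 ∂(piM (Fin n) μ) ≤ (∫ s, ∫ t, W s t ∂μ ∂μ) ^ 2 + 16 / n := by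
  have : Nonempty (Fin n) := ⟨⟨0, hn⟩⟩
  have h := sample_le (V := Fin 4) μ hb h0 h1 {((0 : Fin 4), (1 : Fin 4)), (2, 3)}
    (by decide) hn
  have h2 : ∀ ω : Fin n → Ω, MinRed.Z (SW W ω)
      ({((0 : Fin 4), (1 : Fin 4)), (2, 3)} : Finset (Fin 4 × Fin 4)) / (n : ℝ) ^ Fintype.card (Fin 4)
      = pden (SW W ω) ^ 2 := by
    intro ω
    rw [Z_two, pden, Fintype.card_fin, Fintype.card_fin, div_pow, ← pow_mul]
  simp only [h2] at h
  refine h.trans (le_of_eq ?_)
  have h3 : ∀ x : Fin 4 → Ω, ∏ e ∈ ({((0 : Fin 4), (1 : Fin 4)), (2, 3)} : Finset (Fin 4 × Fin 4)),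
      W (x e.1) (x e.2) = W (x 0) (x 1) * W (x 2) (x 3) := by
    intro x
    rw [Finset.prod_insert (by simp), Finset.prod_singleton]
  simp only [h3]
  rw [integral_mul_of_ind μ {0, 1} _ _ (bm_pair hb 0 1) (bm_pair hb 2 3)]
  · rw [integral_eval2 μ (by decide) hb, integral_eval2 μ (by decide) hb, Fintype.card_fin]
    push_cast
    ring
  · intro v hv x y
    have h0 : (0 : Fin 4) ≠ v := by rintro rfl; simp at hv
    have h1 : (1 : Fin 4) ≠ v := by rintro rfl; simp at hv
    show W (Function.update x v y 0) (Function.update x v y 1) = W (x 0) (x 1)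
    rw [Function.update_of_ne h0, Function.update_of_ne h1]
  · intro v hv x y
    have h0 : (2 : Fin 4) ≠ v := by rintro rfl; simp at hv
    have h1 : (3 : Fin 4) ≠ v := by rintro rfl; simp at hv
    show W (Function.update x v y 2) (Function.update x v y 3) = W (x 2) (x 3)
    rw [Function.update_of_ne h0, Function.update_of_ne h1]

theorem tangent (m : ℕ) {p q : ℝ} (hp : 0 < p) (hq : 0 ≤ q) :
    p ^ m + m * p ^ (m - 1) * (q - p) ≤ q ^ m := by
  rcases Nat.eq_zero_or_pos m with rfl | hm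
  · simp
  have h := one_add_mul_le_pow (a := q / p - 1) (by
    have : 0 ≤ q / p := div_nonneg hq hp.le
    linarith) m
  have h2 : (1 + (q / p - 1)) ^ m = q ^ m / p ^ m := by
    rw [← div_pow]; congr 1; ring
  rw [h2, le_div_iff₀ (pow_pos hp _)] at h
  refine le_trans (le_of_eq ?_) h
  have h3 : p ^ m = p ^ (m - 1) * p := by rw [← pow_succ, Nat.sub_add_cancel hm]
  rw [h3]
  field_simp

/-- everywhere version -/
theorem measurable_of_finite_aux (H : SimpleGraph V) [DecidableRel H.Adj] (μ : Measure Ω)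
    [IsProbabilityMeasure μ] {δ δ' : ℝ} (hδ : δ < δ')
    (hfin : ∀ (n : ℕ) (W : Fin n → Fin n → ℝ) (hs : ∀ x y, W x y = W y x), 0 < n →
      (∀ x y, 0 ≤ W x y) → (∀ x y, W x y ≤ 1) → 1 - δ' ≤ pden W →
      pden W ^ H.edgeFinset.card ≤ tden H W hs)
    (hW : ∀ s t, W s t = W t s)
    (hm : Measurable (Function.uncurry W)) (h0 : ∀ s t, 0 ≤ W s t) (h1 : ∀ s t, W s t ≤ 1)
    (hp : 1 - δ ≤ ∫ s, ∫ t, W s t ∂μ ∂μ) :
    (∫ s, ∫ t, W s t ∂μ ∂μ) ^ H.edgeFinset.card ≤
      ∫ x, ∏ e ∈ H.edgeFinset, ev W hW x e ∂(piM V μ) := by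
  classical
  have hb := bm_of01 hm h0 h1
  set m := H.edgeFinset.card with hm'
  set p := ∫ s, ∫ t, W s t ∂μ ∂μ with hpdef
  have hp0 : 0 ≤ p := integral_nonneg fun s => integral_nonneg fun t => h0 s t
  have hp1 : p ≤ 1 := by
    have h2 : ∀ s, ∫ t, W s t ∂μ ≤ 1 := by
      intro s
      have : ∫ t, W s t ∂μ ≤ ∫ t, (1 : ℝ) ∂μ := integral_mono
        ((hb.comp (g := fun t : Ω => (s, t)) measurable_prodMk_left).integrable _)
        (integrable_const _) fun t => h1 s t
      simpa using this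
    have : p ≤ ∫ s, (1 : ℝ) ∂μ := integral_mono ((hb.integral_right μ).integrable _)
      (integrable_const _) h2
    simpa using this
  have hev : ∀ x : V → Ω, ∏ e ∈ H.edgeFinset, ev W hW x e = ∏ e ∈ orient H, W (x e.1) (x e.2) := by
    intro x
    rw [orient, Finset.prod_image (out_inj H)]
    refine Finset.prod_congr rfl fun e _ => ?_
    conv_lhs => rw [← mk_out e]
    rfl
  simp only [hev]
  set t := ∫ x, ∏ e ∈ orient H, W (x e.1) (x e.2) ∂(piM V μ) with ht
  have ht0 : 0 ≤ t := integral_nonneg fun x => Finset.prod_nonneg fun e _ => h0 _ _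
  rcases hp0.eq_or_lt with hpz | hppos
  · rcases Nat.eq_zero_or_pos m with hm0 | hm0
    · have hO : orient H = ∅ := by
        rw [← Finset.card_eq_zero, orient_card]; exact hm0
      rw [hm0, pow_zero, ht, hO]
      simp
    · rw [← hpz, zero_pow hm0.ne']
      exact ht0
  set γ := δ' - δ with hγ
  have hγ0 : 0 < γ := by rw [hγ]; linarith
  set K := 1 / γ ^ 2 with hK
  have hK0 : 0 < K := by positivity
  have hirr : ∀ e ∈ orient H, e.1 ≠ e.2 := fun e he => (mem_orient H he).1.ne
  -- pointwise inequality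
  have hpt : ∀ (n : ℕ), 0 < n → ∀ ω : Fin n → Ω,
      p ^ m + m * p ^ (m - 1) * (pden (SW W ω) - p) - K * (pden (SW W ω) - p) ^ 2
        ≤ MinRed.Z (SW W ω) (orient H) / (n : ℝ) ^ Fintype.card V := by
    intro n hn ω
    have hn' : (0 : ℝ) < n := by exact_mod_cast hn
    set q := pden (SW W ω) with hq
    have hZ0 : 0 ≤ MinRed.Z (SW W ω) (orient H) / (n : ℝ) ^ Fintype.card V :=
      div_nonneg (MinRed.Z_nonneg (SW_nonneg h0 ω) _) (by positivity)
    have hq0 : 0 ≤ q := by
      rw [hq, pden]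
      exact div_nonneg (Finset.sum_nonneg fun i _ => Finset.sum_nonneg fun j _ =>
        SW_nonneg h0 ω i j) (by positivity)
    by_cases hlt : 1 - δ' ≤ q
    · have h2 := hfin n (SW W ω) (SW_symm hW ω) hn (SW_nonneg h0 ω) (SW_le h1 ω) hlt
      rw [tden_eq, Fintype.card_fin] at h2
      have h3 := tangent m hppos hq0
      have h4 : 0 ≤ K * (q - p) ^ 2 := by positivity
      linarith
    · push Not at hlt
      have h2 : γ < p - q := by rw [hγ]; linarith
      have h3 : 1 ≤ K * (q - p) ^ 2 := by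
        rw [hK, one_div, inv_mul_eq_div, le_div_iff₀ (by positivity)]
        nlinarith
      have h4 : (m : ℝ) * p ^ (m - 1) * (q - p) ≤ 0 :=
        mul_nonpos_of_nonneg_of_nonpos (by positivity) (by linarith)
      have h5 : p ^ m ≤ 1 := pow_le_one₀ hp0 hp1
      linarith
  -- integrated inequality
  have hint : ∀ n : ℕ, 0 < n → p ^ m ≤ t + (((Fintype.card V : ℝ) ^ 2 + 16 * K)) / n := by
    intro n hn
    have hn' : (0 : ℝ) < n := by exact_mod_cast hn
    have hbq : BM (fun ω : Fin n → Ω => pden (SW W ω)) := by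
      have h2 : BM (fun ω : Fin n → Ω => ∑ i, ∑ j, SW W ω i j) :=
        BM.finsum univ fun i _ => BM.finsum univ fun j _ => bm_SW hb i j
      have h3 := h2.mul (BM.const (((n : ℝ) ^ 2)⁻¹))
      simpa [pden, div_eq_mul_inv] using h3
    have hbZ : BM (fun ω : Fin n → Ω => MinRed.Z (SW W ω) (orient H) / (n : ℝ) ^ Fintype.card V) := by
      have h2 : BM (fun ω : Fin n → Ω => ∑ z : V → Fin n, ∏ e ∈ orient H, SW W ω (z e.1) (z e.2)) :=
        BM.finsum univ fun z _ => BM.finprod _ fun e _ => bm_SW hb _ _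
      have h3 := h2.mul (BM.const (((n : ℝ) ^ Fintype.card V)⁻¹))
      simpa [MinRed.Z, div_eq_mul_inv] using h3
    have hI1 : Integrable (fun ω : Fin n → Ω => pden (SW W ω)) (piM (Fin n) μ) := hbq.integrable _
    have hI2 : Integrable (fun ω : Fin n → Ω => pden (SW W ω) ^ 2) (piM (Fin n) μ) :=
      (hbq.pow 2).integrable _
    have hL : ∀ ω : Fin n → Ω,
        p ^ m + m * p ^ (m - 1) * (pden (SW W ω) - p) - K * (pden (SW W ω) - p) ^ 2
        = (p ^ m - m * p ^ (m - 1) * p - K * p ^ 2) + (m * p ^ (m - 1) + 2 * K * p) * pden (SW W ω)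
          - K * pden (SW W ω) ^ 2 := fun ω => by ring
    have h2 : ∫ ω, ((p ^ m - m * p ^ (m - 1) * p - K * p ^ 2) +
        (m * p ^ (m - 1) + 2 * K * p) * pden (SW W ω) - K * pden (SW W ω) ^ 2) ∂(piM (Fin n) μ)
        ≤ ∫ ω, MinRed.Z (SW W ω) (orient H) / (n : ℝ) ^ Fintype.card V ∂(piM (Fin n) μ) := by
      refine integral_mono (((integrable_const _).add (hI1.const_mul _)).sub (hI2.const_mul _))
        (hbZ.integrable _) fun ω => ?_
      simp only
      rw [← hL]
      exact hpt n hn ω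
    have hA : Integrable (fun ω : Fin n → Ω => (p ^ m - m * p ^ (m - 1) * p - K * p ^ 2) +
        (m * p ^ (m - 1) + 2 * K * p) * pden (SW W ω)) (piM (Fin n) μ) :=
      (integrable_const _).add (hI1.const_mul _)
    have hA' : Integrable (fun ω : Fin n → Ω =>
        (m * p ^ (m - 1) + 2 * K * p) * pden (SW W ω)) (piM (Fin n) μ) := hI1.const_mul _
    have hB : Integrable (fun ω : Fin n → Ω => K * pden (SW W ω) ^ 2) (piM (Fin n) μ) :=
      hI2.const_mul _
    rw [integral_sub hA hB, integral_add (integrable_const _) hA', integral_const_mul,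
      integral_const_mul] at h2
    simp only [integral_const, probReal_univ, smul_eq_mul, one_mul] at h2
    have h3 := sample_le μ hb h0 h1 (orient H) hirr hn
    have h4 := sample_mean μ hb h0 h1 hn
    have h5 := sample_sq μ hb h0 h1 hn
    rw [← hpdef] at h4 h5
    have h6 : (m * p ^ (m - 1) + 2 * K * p) * p ≤
        (m * p ^ (m - 1) + 2 * K * p) * ∫ ω, pden (SW W ω) ∂(piM (Fin n) μ) :=
      mul_le_mul_of_nonneg_left h4 (by positivity)
    have h7 : K * ∫ ω, pden (SW W ω) ^ 2 ∂(piM (Fin n) μ) ≤ K * (p ^ 2 + 16 / n) :=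
      mul_le_mul_of_nonneg_left h5 hK0.le
    have h8 : ((Fintype.card V : ℝ) ^ 2 + 16 * K) / n = (Fintype.card V : ℝ) ^ 2 / n + K * (16 / n) := by
      ring
    rw [h8]
    nlinarith
  -- the limit
  refine le_of_forall_pos_le_add fun ε hε => ?_
  set C := (Fintype.card V : ℝ) ^ 2 + 16 * K with hC
  have hC0 : 0 ≤ C := by positivity
  obtain ⟨n, hn⟩ := exists_nat_gt (C / ε)
  have hn0 : (0 : ℝ) < n := lt_of_le_of_lt (by positivity) hn
  have hn1 : 0 < n := by exact_mod_cast hn0
  have h2 := hint n hn1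
  have h3 : C / n ≤ ε := by
    rw [div_le_iff₀ hn0]
    rw [div_lt_iff₀ hε] at hn
    linarith
  linarith

end sample

/-- **M11**: from finite kernels to measurable kernels on probability spaces. -/
theorem measurable_of_finite {V Ω : Type} [Fintype V] [DecidableEq V] [MeasurableSpace Ω]
    (H : SimpleGraph V) [DecidableRel H.Adj] (μ : Measure Ω) [IsProbabilityMeasure μ]
    {δ δ' : ℝ} (hδ : δ < δ')
    (hfin : ∀ (n : ℕ) (W : Fin n → Fin n → ℝ) (hs : ∀ x y, W x y = W y x), 0 < n →
      (∀ x y, 0 ≤ W x y) → (∀ x y, W x y ≤ 1) → 1 - δ' ≤ pden W →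
      pden W ^ H.edgeFinset.card ≤ tden H W hs)
    (W : Ω → Ω → ℝ) (hW : ∀ s t, W s t = W t s) (hm : Measurable (Function.uncurry W))
    (h01 : ∀ᵐ z ∂(μ.prod μ), 0 ≤ W z.1 z.2 ∧ W z.1 z.2 ≤ 1)
    (hp : 1 - δ ≤ ∫ s, ∫ t, W s t ∂μ ∂μ) :
    (∫ s, ∫ t, W s t ∂μ ∂μ) ^ H.edgeFinset.card ≤
      ∫ x, ∏ e ∈ H.edgeFinset, ev W hW x e ∂(piM V μ) := by
  classical
  set W' : Ω → Ω → ℝ := fun s t => max 0 (min 1 (W s t)) with hW'
  have hsymm' : ∀ s t, W' s t = W' t s := by
    intro s t; simp only [hW', hW s t]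
  have hmeas' : Measurable (Function.uncurry W') :=
    measurable_const.max (measurable_const.min hm)
  set N : Set (Ω × Ω) := {z | ¬ (0 ≤ Function.uncurry W z ∧ Function.uncurry W z ≤ 1)} with hN
  have hNm : MeasurableSet N :=
    ((measurableSet_le measurable_const hm).inter (measurableSet_le hm measurable_const)).compl
  have hN0 : (μ.prod μ) N = 0 := by
    rw [ae_iff] at h01
    exact h01
  have hWW : ∀ s t, (s, t) ∉ N → W' s t = W s t := by
    intro s t h
    simp only [hN, Set.mem_ofPred_eq, not_not, Function.uncurry] at h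
    simp only [hW']
    rw [min_eq_right h.2, max_eq_right h.1]
  have hint' : ∫ s, ∫ t, W' s t ∂μ ∂μ = ∫ s, ∫ t, W s t ∂μ ∂μ := by
    have h1 : ∀ᵐ s ∂μ, ∀ᵐ t ∂μ, (s, t) ∉ N := by
      have : ∀ᵐ z ∂(μ.prod μ), z ∉ N := by
        rw [ae_iff]; simpa only [Decidable.not_not, Set.ofPred_mem_eq] using hN0
      exact Measure.ae_ae_of_ae_prod this
    apply integral_congr_ae
    filter_upwards [h1] with s hs
    apply integral_congr_ae
    filter_upwards [hs] with t ht
    exact hWW s t ht
  have key := measurable_of_finite_aux (W := W') H μ hδ hfin hsymm' hmeas'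
    (fun s t => le_max_left _ _) (fun s t => max_le zero_le_one (min_le_left _ _))
    (by rw [hint']; exact hp)
  rw [hint'] at key
  refine key.trans (le_of_eq ?_)
  apply integral_congr_ae
  have h2 : ∀ᵐ x ∂(piM V μ), ∀ e ∈ H.edgeFinset, ev W' hsymm' x e = ev W hW x e := by
    rw [Finset.eventually_all]
    intro e he
    induction e with
    | h u v =>
      have huv : u ≠ v := by
        rw [SimpleGraph.mem_edgeFinset, SimpleGraph.mem_edgeSet] at he
        exact he.ne
      filter_upwards [ae_eval2 μ huv hNm hN0] with x hx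
      exact hWW _ _ hx
  filter_upwards [h2] with x hx
  exact prod_congr rfl hx

end Vale.Agent.P050.Dense
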