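import Mathlib

set_option linter.all false

/-!
# P050: removal of the minimum degree hypothesis for dense targets

`Z W S` is the number of weighted maps. The minimiser of `Z W E / (mean W) ^ |E|` among the
symmetric kernels with values in `[0, 1]` and mean at least `1 - ε` has all its rows close to one.
-/

namespace Vale.Agent.P050.MinRed

open Finset Function

variable {V U : Type} [Fintype V] [DecidableEq V] [Fintype U]

/-- the sum over all maps of the product of the weights of the edges in `S` -/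
def Z (W : U → U → ℝ) (S : Finset (V × V)) : ℝ := ∑ x : V → U, ∏ e ∈ S, W (x e.1) (x e.2)

/-- the total weight -/
def tot (W : U → U → ℝ) : ℝ := ∑ a, ∑ b, W a b

/-- the edges of `S` touching the vertex `v` -/
def at_ (S : Finset (V × V)) (v : V) : Finset (V × V) := S.filter fun e => e.1 = v ∨ e.2 = v

section resample

theorem resample1 (u : V) (F : (V → U) → ℝ) :
    ∑ x : V → U, ∑ a, F (update x u a) = (Fintype.card U : ℝ) * ∑ x, F x := by
  classical
  rw [← Fintype.sum_prod_type' (f := fun (x : V → U) a => F (update x u a))]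
  set σ : (V → U) × U → (V → U) × U := fun p => (update p.1 u p.2, p.1 u) with hσ
  have hinv : Involutive σ := by
    rintro ⟨x, a⟩
    simp [hσ]
  rw [← Equiv.sum_comp (Function.Involutive.toPerm σ hinv)]
  have : ∀ p : (V → U) × U, F (update (Function.Involutive.toPerm σ hinv p).1 u
      (Function.Involutive.toPerm σ hinv p).2) = F p.1 := by
    rintro ⟨x, a⟩
    show F (update (update x u a) u (x u)) = F x
    simp
  rw [Finset.sum_congr rfl fun p _ => this p, Fintype.sum_prod_type]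
  simp [Finset.mul_sum]

theorem resample2 (u v : V) (F : (V → U) → ℝ) :
    ∑ x : V → U, ∑ a, ∑ b, F (update (update x u a) v b) = (Fintype.card U : ℝ) ^ 2 * ∑ x, F x := by
  have h1 := resample1 u (fun x => ∑ b, F (update x v b))
  rw [resample1 v F] at h1
  rw [h1]
  ring

/-- independence of one coordinate from the others -/
theorem indep1 (u : V) (f : U → ℝ) (g : (V → U) → ℝ) (hg : ∀ x a, g (update x u a) = g x) :
    (Fintype.card U : ℝ) * ∑ x : V → U, f (x u) * g x = (∑ a, f a) * ∑ x, g x := by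
  rw [← resample1 u, Finset.mul_sum]
  refine Finset.sum_congr rfl fun x _ => ?_
  rw [Finset.sum_mul]
  refine Finset.sum_congr rfl fun a _ => ?_
  rw [hg, update_self]

/-- independence of two coordinates from the others -/
theorem indep2 {u v : V} (huv : u ≠ v) (f : U → U → ℝ) (g : (V → U) → ℝ)
    (hu : ∀ x a, g (update x u a) = g x) (hv : ∀ x a, g (update x v a) = g x) :
    (Fintype.card U : ℝ) ^ 2 * ∑ x : V → U, f (x u) (x v) * g x
      = (∑ a, ∑ b, f a b) * ∑ x, g x := by
  rw [← resample2 u v, Finset.mul_sum]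
  refine Finset.sum_congr rfl fun x _ => ?_
  rw [Finset.sum_mul]
  refine Finset.sum_congr rfl fun a _ => ?_
  rw [Finset.sum_mul]
  refine Finset.sum_congr rfl fun b _ => ?_
  rw [hv, hu, update_self, update_of_ne huv, update_self]

end resample

section basic

variable {W : U → U → ℝ} (h0 : ∀ a b, 0 ≤ W a b) (h1 : ∀ a b, W a b ≤ 1)

include h0

theorem prod_nonneg' (S : Finset (V × V)) (x : V → U) : 0 ≤ ∏ e ∈ S, W (x e.1) (x e.2) :=
  Finset.prod_nonneg fun _ _ => h0 _ _

theorem Z_nonneg (S : Finset (V × V)) : 0 ≤ Z W S :=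
  Finset.sum_nonneg fun x _ => prod_nonneg' h0 S x

include h1

theorem prod_mono {T S : Finset (V × V)} (h : T ⊆ S) (x : V → U) :
    ∏ e ∈ S, W (x e.1) (x e.2) ≤ ∏ e ∈ T, W (x e.1) (x e.2) := by
  rw [← Finset.prod_sdiff h]
  exact mul_le_of_le_one_left (prod_nonneg' h0 T x)
    (Finset.prod_le_one (fun _ _ => h0 _ _) fun _ _ => h1 _ _)

theorem Z_mono {T S : Finset (V × V)} (h : T ⊆ S) : Z W S ≤ Z W T :=
  Finset.sum_le_sum fun x _ => prod_mono h0 h1 h x

end basic

/-- a product of edge weights does not depend on a vertex which is not touched -/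
theorem prod_update (W : U → U → ℝ) (S : Finset (V × V)) (v : V)
    (h : ∀ e ∈ S, e.1 ≠ v ∧ e.2 ≠ v) (x : V → U) (a : U) :
    ∏ e ∈ S, W (update x v a e.1) (update x v a e.2) = ∏ e ∈ S, W (x e.1) (x e.2) := by
  refine Finset.prod_congr rfl fun e he => ?_
  rw [update_of_ne (h e he).1, update_of_ne (h e he).2]

/-- the local lemma: each further edge costs a factor `1 - 2 ε` -/
theorem grow_of {W : U → U → ℝ} {ε : ℝ} (hε : 0 ≤ 1 - 2 * ε) (E : Finset (V × V)) (k : ℕ)
    (h : ∀ S ⊆ E, S.card < k → ∀ e ∈ E, e ∉ S → (1 - 2 * ε) * Z W S ≤ Z W (insert e S))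
    (T : Finset (V × V)) : ∀ R : Finset (V × V), Disjoint T R → T ∪ R ⊆ E → (T ∪ R).card ≤ k →
      (1 - 2 * ε) ^ R.card * Z W T ≤ Z W (T ∪ R) := by
  intro R
  induction R using Finset.induction_on with
  | empty => intro _ _ _; simp
  | insert a R ha ih =>
    intro hd hE hk
    have hd' : Disjoint T R := Finset.disjoint_of_subset_right (Finset.subset_insert a R) hd
    have haT : a ∉ T := fun hh => (Finset.disjoint_left.1 hd hh) (Finset.mem_insert_self a R)
    have hun : T ∪ insert a R = insert a (T ∪ R) := by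
      ext e; simp only [Finset.mem_union, Finset.mem_insert]; tauto
    have haTR : a ∉ T ∪ R := by
      simp [haT, ha]
    rw [hun] at hE hk
    rw [Finset.card_insert_of_notMem haTR] at hk
    have h1 := ih hd' (fun e he => hE (Finset.mem_insert_of_mem he)) (by omega)
    have h2 := h (T ∪ R) (fun e he => hE (Finset.mem_insert_of_mem he)) (by omega) a
      (hE (Finset.mem_insert_self _ _)) haTR
    rw [hun, Finset.card_insert_of_notMem ha]
    calc (1 - 2 * ε) ^ (R.card + 1) * Z W T = (1 - 2 * ε) * ((1 - 2 * ε) ^ R.card * Z W T) := by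
          ring
      _ ≤ (1 - 2 * ε) * Z W (T ∪ R) := mul_le_mul_of_nonneg_left h1 hε
      _ ≤ _ := h2

theorem bern {ε : ℝ} (h1 : 2 * ε ≤ 1) (n : ℕ) : 1 - 2 * n * ε ≤ (1 - 2 * ε) ^ n := by
  have := one_add_mul_le_pow (a := -(2 * ε)) (by linarith) n
  calc 1 - 2 * n * ε = 1 + n * -(2 * ε) := by ring
    _ ≤ (1 + -(2 * ε)) ^ n := this
    _ = _ := by ring_nf

/-- the hypotheses on the set of edges -/
structure Edges (E : Finset (V × V)) (D : ℕ) : Prop where
  irrefl : ∀ e ∈ E, e.1 ≠ e.2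
  simple : ∀ e ∈ E, (e.2, e.1) ∉ E
  deg : ∀ v, (at_ E v).card ≤ D

/-- the hypotheses on the kernel -/
structure Ker (W : U → U → ℝ) (ε : ℝ) : Prop where
  symm : ∀ a b, W a b = W b a
  nonneg : ∀ a b, 0 ≤ W a b
  le_one : ∀ a b, W a b ≤ 1
  mean : (1 - ε) * (Fintype.card U : ℝ) ^ 2 ≤ tot W

variable {E : Finset (V × V)} {D : ℕ} {W : U → U → ℝ} {ε : ℝ}

theorem at_mono {S E : Finset (V × V)} (h : S ⊆ E) (v : V) : at_ S v ⊆ at_ E v :=
  Finset.filter_subset_filter _ h

theorem Edges.mono (hE : Edges E D) {S : Finset (V × V)} (h : S ⊆ E) : Edges S D where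
  irrefl e he := hE.irrefl e (h he)
  simple e he h' := hE.simple e (h he) (h h')
  deg v := (Finset.card_le_card (at_mono h v)).trans (hE.deg v)

theorem lll [Nonempty U] (hE : Edges E D) (hW : Ker W ε) (hε0 : 0 ≤ ε) (hD : 8 * D * ε ≤ 1)
    (hε2 : 2 * ε ≤ 1) :
    ∀ S ⊆ E, ∀ e ∈ E, e ∉ S → (1 - 2 * ε) * Z W S ≤ Z W (insert e S) := by
  intro S
  induction S using Finset.strongInduction with
  | H S ih =>
  intro hS e he heS
  have hN : (0 : ℝ) < (Fintype.card U : ℝ) ^ 2 := by
    have : 0 < Fintype.card U := Fintype.card_pos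
    positivity
  set T := S.filter fun f => ¬ (f.1 = e.1 ∨ f.2 = e.1 ∨ f.1 = e.2 ∨ f.2 = e.2) with hT
  set R := S.filter fun f => f.1 = e.1 ∨ f.2 = e.1 ∨ f.1 = e.2 ∨ f.2 = e.2 with hR
  have hTR : T ∪ R = S := by
    rw [hT, hR, Finset.union_comm]
    exact Finset.filter_union_filter_not_eq _ S
  have hdis : Disjoint T R := (Finset.disjoint_filter_filter_not S S _).symm
  have hRc : R.card ≤ 2 * D := by
    have hsub : R ⊆ at_ E e.1 ∪ at_ E e.2 := by
      intro f hf
      rw [hR, Finset.mem_filter] at hf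
      rw [Finset.mem_union, at_, at_, Finset.mem_filter, Finset.mem_filter]
      rcases hf with ⟨hf, h | h | h | h⟩
      · exact Or.inl ⟨hS hf, Or.inl h⟩
      · exact Or.inl ⟨hS hf, Or.inr h⟩
      · exact Or.inr ⟨hS hf, Or.inl h⟩
      · exact Or.inr ⟨hS hf, Or.inr h⟩
    have := (Finset.card_le_card hsub).trans (Finset.card_union_le _ _)
    have h1 := hE.deg e.1
    have h2 := hE.deg e.2
    omega
  have hgrow : (1 - 2 * ε) ^ R.card * Z W T ≤ Z W S := by
    have := grow_of (W := W) (ε := ε) (by linarith) S S.card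
      (fun S' hS' hc f hf hfS' => ih S' (Finset.ssubset_iff_subset_ne.2
        ⟨hS', fun hh => by rw [hh] at hc; exact lt_irrefl _ hc⟩) (hS'.trans hS) f (hS hf) hfS')
      T R hdis (by rw [hTR]) (by rw [hTR])
    rwa [hTR] at this
  have hT0 : 0 ≤ Z W T := Z_nonneg hW.nonneg T
  have hS0 : 0 ≤ Z W S := Z_nonneg hW.nonneg S
  have hhalf : (1 : ℝ) / 2 ≤ (1 - 2 * ε) ^ R.card := by
    have h1 : (1 - 2 * ε) ^ (2 * D) ≤ (1 - 2 * ε) ^ R.card :=
      pow_le_pow_of_le_one (by linarith) (by linarith) hRc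
    have h2 := bern (ε := ε) hε2 (2 * D)
    push_cast at h2
    linarith
  have hT2 : Z W T ≤ 2 * Z W S := by
    have : (1 : ℝ) / 2 * Z W T ≤ (1 - 2 * ε) ^ R.card * Z W T :=
      mul_le_mul_of_nonneg_right hhalf hT0
    linarith
  have hdiff : Z W S - Z W (insert e S) ≤ ε * Z W T := by
    have h1 : Z W S - Z W (insert e S)
        = ∑ x : V → U, (1 - W (x e.1) (x e.2)) * ∏ f ∈ S, W (x f.1) (x f.2) := by
      rw [Z, Z, ← Finset.sum_sub_distrib]
      refine Finset.sum_congr rfl fun x _ => ?_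
      rw [Finset.prod_insert heS]
      ring
    have h2 : ∑ x : V → U, (1 - W (x e.1) (x e.2)) * ∏ f ∈ S, W (x f.1) (x f.2)
        ≤ ∑ x : V → U, (1 - W (x e.1) (x e.2)) * ∏ f ∈ T, W (x f.1) (x f.2) :=
      Finset.sum_le_sum fun x _ => mul_le_mul_of_nonneg_left
        (prod_mono hW.nonneg hW.le_one (Finset.filter_subset _ S) x)
        (by have := hW.le_one (x e.1) (x e.2); linarith)
    have h3 := indep2 (hE.irrefl e he) (fun a b => 1 - W a b)
      (fun x => ∏ f ∈ T, W (x f.1) (x f.2))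
      (fun x a => prod_update W T e.1 (fun f hf => by
        rw [hT, Finset.mem_filter] at hf; tauto) x a)
      (fun x a => prod_update W T e.2 (fun f hf => by
        rw [hT, Finset.mem_filter] at hf; tauto) x a)
    have h4 : ∑ a, ∑ b, (1 - W a b) ≤ ε * (Fintype.card U : ℝ) ^ 2 := by
      have := hW.mean
      rw [tot] at this
      simp only [Finset.sum_sub_distrib, Finset.sum_const, Finset.card_univ, nsmul_eq_mul, mul_one]
      nlinarith
    have h5 : (Fintype.card U : ℝ) ^ 2 *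
        ∑ x : V → U, (1 - W (x e.1) (x e.2)) * ∏ f ∈ T, W (x f.1) (x f.2)
        ≤ (Fintype.card U : ℝ) ^ 2 * (ε * Z W T) := by
      rw [h3]
      calc (∑ a, ∑ b, (1 - W a b)) * ∑ x : V → U, ∏ f ∈ T, W (x f.1) (x f.2)
          ≤ (ε * (Fintype.card U : ℝ) ^ 2) * Z W T := mul_le_mul_of_nonneg_right h4 hT0
        _ = _ := by ring
    rw [h1]
    exact h2.trans (le_of_mul_le_mul_left h5 hN)
  have : ε * Z W T ≤ ε * (2 * Z W S) := mul_le_mul_of_nonneg_left hT2 hε0
  linarith

theorem grow [Nonempty U] (hE : Edges E D) (hW : Ker W ε) (hε0 : 0 ≤ ε) (hD : 8 * D * ε ≤ 1)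
    (hε2 : 2 * ε ≤ 1) {T : Finset (V × V)} (hT : T ⊆ E) (k : ℕ) (hk : (E \ T).card ≤ k) :
    (1 - 2 * ε) ^ k * Z W T ≤ Z W E := by
  have h := grow_of (W := W) (ε := ε) (by linarith) E E.card
    (fun S hS _ e he heS => lll hE hW hε0 hD hε2 S hS e he heS) T (E \ T)
    Finset.disjoint_sdiff (by rw [Finset.union_sdiff_of_subset hT])
    (by rw [Finset.union_sdiff_of_subset hT])
  rw [Finset.union_sdiff_of_subset hT] at h
  refine le_trans (mul_le_mul_of_nonneg_right
    (pow_le_pow_of_le_one (by linarith) (by linarith) hk) (Z_nonneg hW.nonneg T)) h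

/-- the mass of the maps with prescribed values at the ends of the edge `e` -/
def A (W : U → U → ℝ) (E : Finset (V × V)) (e : V × V) (a b : U) : ℝ :=
  ∑ x : V → U, ∏ f ∈ E.erase e,
    W (update (update x e.1 a) e.2 b f.1) (update (update x e.1 a) e.2 b f.2)

/-- the derivative of `Z` in the direction `δ`, at the edge `e` -/
theorem deriv_edge {e : V × V} (he : e.1 ≠ e.2) (W δ : U → U → ℝ) (E : Finset (V × V)) :
    (Fintype.card U : ℝ) ^ 2 * ∑ x : V → U, (∏ f ∈ E.erase e, W (x f.1) (x f.2)) *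
      δ (x e.1) (x e.2) = ∑ a, ∑ b, δ a b * A W E e a b := by
  rw [← resample2 e.1 e.2, Finset.sum_comm]
  refine Finset.sum_congr rfl fun a _ => ?_
  rw [Finset.sum_comm]
  refine Finset.sum_congr rfl fun b _ => ?_
  rw [A, Finset.mul_sum]
  refine Finset.sum_congr rfl fun x _ => ?_
  rw [update_self, update_of_ne he, update_self]
  ring

/-- dropping all edges which touch one of the ends of `e` -/
theorem A_le [Nonempty U] (hE : Edges E D) (hW : Ker W ε) (hε0 : 0 ≤ ε) (hD : 8 * D * ε ≤ 1)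
    (hε2 : 2 * ε ≤ 1) {e : V × V} (he : e ∈ E) (a b : U) :
    (1 - 2 * ε) ^ (3 * D) * A W E e a b ≤ Z W E := by
  set T := E.filter fun f => ¬ (f.1 = e.1 ∨ f.2 = e.1 ∨ f.1 = e.2 ∨ f.2 = e.2) with hT
  have hTe : T ⊆ E.erase e := by
    intro f hf
    rw [hT, Finset.mem_filter] at hf
    rw [Finset.mem_erase]
    refine ⟨?_, hf.1⟩
    rintro rfl
    exact hf.2 (Or.inl rfl)
  have h1 : A W E e a b ≤ Z W T := by
    rw [A, Z]
    refine Finset.sum_le_sum fun x _ => ?_
    refine (prod_mono hW.nonneg hW.le_one hTe _).trans (le_of_eq ?_)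
    refine Finset.prod_congr rfl fun f hf => ?_
    rw [hT, Finset.mem_filter] at hf
    have h := hf.2
    push Not at h
    rw [update_of_ne h.2.2.1, update_of_ne h.1, update_of_ne h.2.2.2, update_of_ne h.2.1]
  have h2 : (1 - 2 * ε) ^ (3 * D) * Z W T ≤ Z W E := by
    refine grow (T := T) hE hW hε0 hD hε2 (Finset.filter_subset _ E) _ ?_
    have hsub : E \ T ⊆ at_ E e.1 ∪ at_ E e.2 := by
      intro f hf
      rw [Finset.mem_sdiff, hT, Finset.mem_filter] at hf
      rw [Finset.mem_union, at_, at_, Finset.mem_filter, Finset.mem_filter]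
      tauto
    have := (Finset.card_le_card hsub).trans (Finset.card_union_le _ _)
    have h1 := hE.deg e.1
    have h2 := hE.deg e.2
    omega
  exact (mul_le_mul_of_nonneg_left h1 (pow_nonneg (by linarith) _)).trans h2

/-- keeping one further edge at one of the ends of `e` -/
theorem A_le_row [Nonempty U] (hE : Edges E D) (hW : Ker W ε) (hε0 : 0 ≤ ε) (hD : 8 * D * ε ≤ 1)
    (hε2 : 2 * ε ≤ 1) {e : V × V} (a b : U) {f : V × V} (hf : f ∈ E.erase e)
    {w v : V} (h1 : v ≠ e.1) (h2 : v ≠ e.2) {c : U}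
    (hc : ∀ x : V → U, update (update x e.1 a) e.2 b w = c) (hff : f = (w, v) ∨ f = (v, w)) :
    (1 - 2 * ε) ^ (3 * D) * ((Fintype.card U : ℝ) * A W E e a b) ≤ (∑ y, W c y) * Z W E := by
  set T := E.filter fun f => ¬ (f.1 = e.1 ∨ f.2 = e.1 ∨ f.1 = e.2 ∨ f.2 = e.2 ∨ f.1 = v ∨ f.2 = v)
    with hT
  have hfT : f ∉ T := by
    intro h
    rw [hT, Finset.mem_filter] at h
    rcases hff with rfl | rfl
    · exact h.2 (by simp)
    · exact h.2 (by simp)
  have hTe : insert f T ⊆ E.erase e := by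
    intro g hg
    rw [Finset.mem_insert] at hg
    rcases hg with rfl | hg
    · exact hf
    · rw [hT, Finset.mem_filter] at hg
      rw [Finset.mem_erase]
      refine ⟨?_, hg.1⟩
      rintro rfl
      exact hg.2 (Or.inl rfl)
  have hA : A W E e a b ≤ ∑ x : V → U, W c (x v) * ∏ g ∈ T, W (x g.1) (x g.2) := by
    rw [A]
    refine Finset.sum_le_sum fun x _ => ?_
    refine (prod_mono hW.nonneg hW.le_one hTe _).trans (le_of_eq ?_)
    rw [Finset.prod_insert hfT]
    congr 1
    · have hv : update (update x e.1 a) e.2 b v = x v := by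
        rw [update_of_ne h2, update_of_ne h1]
      rcases hff with rfl | rfl
      · show W (update (update x e.1 a) e.2 b w) (update (update x e.1 a) e.2 b v) = W c (x v)
        rw [hc, hv]
      · show W (update (update x e.1 a) e.2 b v) (update (update x e.1 a) e.2 b w) = W c (x v)
        rw [hc, hv, hW.symm]
    · refine Finset.prod_congr rfl fun g hg => ?_
      rw [hT, Finset.mem_filter] at hg
      have h := hg.2
      push Not at h
      rw [update_of_ne h.2.2.1, update_of_ne h.1, update_of_ne h.2.2.2.1, update_of_ne h.2.1]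
  have hI := indep1 v (fun y => W c y) (fun x : V → U => ∏ g ∈ T, W (x g.1) (x g.2))
    (fun x a => prod_update W T v (fun g hg => by
      rw [hT, Finset.mem_filter] at hg; tauto) x a)
  have hG : (1 - 2 * ε) ^ (3 * D) * Z W T ≤ Z W E := by
    refine grow (T := T) hE hW hε0 hD hε2 (Finset.filter_subset _ E) _ ?_
    have hsub : E \ T ⊆ (at_ E e.1 ∪ at_ E e.2) ∪ at_ E v := by
      intro g hg
      rw [Finset.mem_sdiff, hT, Finset.mem_filter] at hg
      rw [Finset.mem_union, Finset.mem_union, at_, at_, at_, Finset.mem_filter, Finset.mem_filter,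
        Finset.mem_filter]
      tauto
    have h3 := (Finset.card_le_card hsub).trans (Finset.card_union_le _ _)
    have h4 := Finset.card_union_le (at_ E e.1) (at_ E e.2)
    have h5 := hE.deg e.1
    have h6 := hE.deg e.2
    have h7 := hE.deg v
    omega
  have hp : 0 ≤ (1 - 2 * ε) ^ (3 * D) := pow_nonneg (by linarith) _
  have hN : (0 : ℝ) ≤ (Fintype.card U : ℝ) := Nat.cast_nonneg _
  calc (1 - 2 * ε) ^ (3 * D) * ((Fintype.card U : ℝ) * A W E e a b)
      ≤ (1 - 2 * ε) ^ (3 * D) * ((Fintype.card U : ℝ) *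
          ∑ x : V → U, W c (x v) * ∏ g ∈ T, W (x g.1) (x g.2)) :=
        mul_le_mul_of_nonneg_left (mul_le_mul_of_nonneg_left hA hN) hp
    _ = (∑ y, W c y) * ((1 - 2 * ε) ^ (3 * D) * Z W T) := by
        rw [hI, Z]; ring
    _ ≤ (∑ y, W c y) * Z W E :=
        mul_le_mul_of_nonneg_left hG (Finset.sum_nonneg fun y _ => hW.nonneg c y)

/-- no component of the graph is a single edge -/
def NoIso (E : Finset (V × V)) : Prop :=
  ∀ e ∈ E, ∃ f ∈ E, f ≠ e ∧ (f.1 = e.1 ∨ f.2 = e.1 ∨ f.1 = e.2 ∨ f.2 = e.2)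

/-- the bound for the two orientations of an edge together -/
theorem A_two [Nonempty U] (hE : Edges E D) (hiso : NoIso E) (hW : Ker W ε) (hε0 : 0 ≤ ε)
    (hD : 8 * D * ε ≤ 1) (hε2 : 2 * ε ≤ 1) {e : V × V} (he : e ∈ E) (a b : U) :
    (1 - 2 * ε) ^ (3 * D) * ((Fintype.card U : ℝ) * (A W E e a b + A W E e b a))
      ≤ ((Fintype.card U : ℝ) + ∑ y, W a y) * Z W E := by
  have hN : (0 : ℝ) ≤ (Fintype.card U : ℝ) := Nat.cast_nonneg _
  have hA1 : (1 - 2 * ε) ^ (3 * D) * ((Fintype.card U : ℝ) * A W E e a b)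
      ≤ (Fintype.card U : ℝ) * Z W E := by
    have := mul_le_mul_of_nonneg_left (A_le hE hW hε0 hD hε2 he a b) hN
    calc _ = (Fintype.card U : ℝ) * ((1 - 2 * ε) ^ (3 * D) * A W E e a b) := by ring
      _ ≤ _ := this
  have hA2 : (1 - 2 * ε) ^ (3 * D) * ((Fintype.card U : ℝ) * A W E e b a)
      ≤ (Fintype.card U : ℝ) * Z W E := by
    have := mul_le_mul_of_nonneg_left (A_le hE hW hε0 hD hε2 he b a) hN
    calc _ = (Fintype.card U : ℝ) * ((1 - 2 * ε) ^ (3 * D) * A W E e b a) := by ring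
      _ ≤ _ := this
  obtain ⟨f, hfE, hfe, hf⟩ := hiso e he
  have hfm : f ∈ E.erase e := Finset.mem_erase.2 ⟨hfe, hfE⟩
  have hne := hE.irrefl e he
  have hfne := hE.irrefl f hfE
  have hsw : f ≠ (e.2, e.1) := fun h => hE.simple e he (h ▸ hfE)
  have hc1 : ∀ x : V → U, update (update x e.1 a) e.2 b e.1 = a := fun x => by
    rw [update_of_ne hne, update_self]
  have hc2 : ∀ x : V → U, update (update x e.1 b) e.2 a e.2 = a := fun x => by
    rw [update_self]
  have key1 : ∀ v : V, v ≠ e.1 → v ≠ e.2 → (f = (e.1, v) ∨ f = (v, e.1)) →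
      (1 - 2 * ε) ^ (3 * D) * ((Fintype.card U : ℝ) * (A W E e a b + A W E e b a))
      ≤ ((Fintype.card U : ℝ) + ∑ y, W a y) * Z W E := by
    intro v h1 h2 hff
    have := A_le_row hE hW hε0 hD hε2 a b hfm h1 h2 hc1 hff
    nlinarith
  have key2 : ∀ v : V, v ≠ e.1 → v ≠ e.2 → (f = (e.2, v) ∨ f = (v, e.2)) →
      (1 - 2 * ε) ^ (3 * D) * ((Fintype.card U : ℝ) * (A W E e a b + A W E e b a))
      ≤ ((Fintype.card U : ℝ) + ∑ y, W a y) * Z W E := by
    intro v h1 h2 hff
    have := A_le_row hE hW hε0 hD hε2 b a hfm h1 h2 hc2 hff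
    nlinarith
  obtain ⟨f1, f2⟩ := f
  obtain ⟨e1, e2⟩ := e
  simp only at *
  rcases hf with rfl | rfl | rfl | rfl
  · exact key1 f2 (fun h => hfne h.symm) (fun h => hfe (by rw [h])) (Or.inl rfl)
  · exact key1 f1 hfne (fun h => hsw (by rw [h])) (Or.inr rfl)
  · exact key2 f2 (fun h => hsw (by rw [h])) (fun h => hfne h.symm) (Or.inl rfl)
  · exact key2 f1 (fun h => hfe (by rw [h])) hfne (Or.inr rfl)

/-- the direction of the variation -/
def dir [DecidableEq U] (a b : U) (x y : U) : ℝ :=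
  (if x = a ∧ y = b then 1 else 0) + if x = b ∧ y = a then 1 else 0

omit [Fintype U] in
theorem dir_nonneg [DecidableEq U] (a b x y : U) : 0 ≤ dir a b x y := by
  unfold dir; split_ifs <;> norm_num

omit [Fintype U] in
theorem dir_le [DecidableEq U] (a b x y : U) : dir a b x y ≤ 2 := by
  unfold dir; split_ifs <;> norm_num

omit [Fintype U] in
theorem dir_symm [DecidableEq U] (a b x y : U) : dir a b x y = dir a b y x := by
  unfold dir
  rw [add_comm]
  congr 1
  · simp only [and_comm]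
  · simp only [and_comm]

theorem sum_dir [DecidableEq U] (a b : U) (F : U → U → ℝ) :
    ∑ x, ∑ y, dir a b x y * F x y = F a b + F b a := by
  have h1 : ∀ c d : U, ∑ x, ∑ y, (if x = c ∧ y = d then (1 : ℝ) else 0) * F x y = F c d := by
    intro c d
    rw [Finset.sum_eq_single c, Finset.sum_eq_single d]
    · simp
    · intro y _ hy; simp [hy]
    · simp
    · intro x _ hx; simp [hx]
    · simp
  simp only [dir, add_mul, Finset.sum_add_distrib]
  rw [h1, h1]

theorem nonneg_of_deriv {g : ℝ → ℝ} {g' τ : ℝ} (hg : HasDerivAt g g' 0) (hτ : 0 < τ)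
    (h0 : g 0 = 0) (h : ∀ t, 0 < t → t < τ → 0 ≤ g t) : 0 ≤ g' := by
  have h1 := hg.tendsto_slope_zero_right
  refine ge_of_tendsto h1 ?_
  filter_upwards [Ioo_mem_nhdsGT hτ] with t ht
  rw [zero_add, h0, sub_zero, smul_eq_mul]
  exact mul_nonneg (inv_nonneg.2 ht.1.le) (h t ht.1 ht.2)

/-- `W` minimises the ratio -/
def IsMin (W : U → U → ℝ) (ε : ℝ) (E : Finset (V × V)) : Prop :=
  Ker W ε ∧ ∀ W' : U → U → ℝ, Ker W' ε → Z W E * tot W' ^ E.card ≤ Z W' E * tot W ^ E.card

/-- stationarity of the minimiser -/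
theorem stationary [Nonempty U] (hE : ∀ e ∈ E, e.1 ≠ e.2) (hW : IsMin W ε E) (hε1 : ε < 1)
    {a b : U} (hab : W a b < 1) :
    2 * E.card * ((Fintype.card U : ℝ) ^ 2 * Z W E) ≤ tot W * ∑ e ∈ E, (A W E e a b + A W E e b a) := by
  classical
  obtain ⟨hK, hmin⟩ := hW
  have hN : (0 : ℝ) < (Fintype.card U : ℝ) ^ 2 := by
    have : 0 < Fintype.card U := Fintype.card_pos
    positivity
  have htot : 0 < tot W := by
    have := hK.mean
    have h : 0 < (1 - ε) * (Fintype.card U : ℝ) ^ 2 := mul_pos (by linarith) hN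
    linarith
  set W' : ℝ → U → U → ℝ := fun t x y => W x y + t * dir a b x y with hW'
  have htotW : ∀ t, tot (W' t) = tot W + t * 2 := by
    intro t
    have := sum_dir a b (fun _ _ => t)
    simp only [tot, hW', Finset.sum_add_distrib]
    congr 1
    calc ∑ x, ∑ y, t * dir a b x y = ∑ x, ∑ y, dir a b x y * t := by simp only [mul_comm]
      _ = t + t := this
      _ = _ := by ring
  set g : ℝ → ℝ := fun t => Z (W' t) E * tot W ^ E.card - Z W E * (tot W + t * 2) ^ E.card with hg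
  have hd1 : HasDerivAt (fun t => Z (W' t) E)
      (∑ x : V → U, ∑ e ∈ E, (∏ f ∈ E.erase e, W (x f.1) (x f.2)) * dir a b (x e.1) (x e.2)) 0 := by
    unfold Z
    refine HasDerivAt.fun_sum fun x _ => ?_
    have h1 : ∀ e ∈ E, HasDerivAt (fun t : ℝ => W' t (x e.1) (x e.2))
        (dir a b (x e.1) (x e.2)) 0 := by
      intro e _
      have := ((hasDerivAt_id (0 : ℝ)).mul_const (dir a b (x e.1) (x e.2))).const_add
        (W (x e.1) (x e.2))
      simpa [hW'] using this
    have h2 := HasDerivAt.fun_finsetProd h1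
    simpa [hW', smul_eq_mul] using h2
  have hd2 : HasDerivAt (fun t : ℝ => (tot W + t * 2) ^ E.card)
      (E.card * tot W ^ (E.card - 1) * 2) 0 := by
    have h1 : HasDerivAt (fun t : ℝ => tot W + t * 2) 2 0 := by
      simpa using ((hasDerivAt_id (0 : ℝ)).mul_const 2).const_add (tot W)
    have h2 := h1.fun_pow E.card
    simpa using h2
  have hd : HasDerivAt g ((∑ x : V → U, ∑ e ∈ E, (∏ f ∈ E.erase e, W (x f.1) (x f.2)) *
      dir a b (x e.1) (x e.2)) * tot W ^ E.card -
        Z W E * (E.card * tot W ^ (E.card - 1) * 2)) 0 :=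
    (hd1.mul_const _).sub (hd2.const_mul _)
  have hnn := nonneg_of_deriv hd (τ := (1 - W a b) / 2) (by linarith) (by simp [hg, hW']) (by
    intro t ht0 ht1
    have hKt : Ker (W' t) ε := by
      refine ⟨fun x y => ?_, fun x y => ?_, fun x y => ?_, ?_⟩
      · simp only [hW']
        rw [hK.symm x y, dir_symm a b x y]
      · exact add_nonneg (hK.nonneg x y) (mul_nonneg ht0.le (dir_nonneg _ _ _ _))
      · simp only [hW']
        by_cases h1 : x = a ∧ y = b
        · obtain ⟨rfl, rfl⟩ := h1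
          have := dir_le x y x y
          nlinarith
        · by_cases h2 : x = b ∧ y = a
          · obtain ⟨rfl, rfl⟩ := h2
            have := dir_le y x x y
            have := hK.symm x y
            nlinarith
          · have : dir a b x y = 0 := by simp [dir, h1, h2]
            rw [this, mul_zero, add_zero]
            exact hK.le_one x y
      · rw [htotW]
        have := hK.mean
        linarith
    have := hmin _ hKt
    rw [htotW] at this
    simp only [hg]
    linarith)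
  have hsum : (Fintype.card U : ℝ) ^ 2 * ∑ x : V → U, ∑ e ∈ E,
      (∏ f ∈ E.erase e, W (x f.1) (x f.2)) * dir a b (x e.1) (x e.2)
      = ∑ e ∈ E, (A W E e a b + A W E e b a) := by
    rw [Finset.sum_comm, Finset.mul_sum]
    refine Finset.sum_congr rfl fun e he => ?_
    rw [deriv_edge (hE e he), sum_dir]
  rcases Nat.eq_zero_or_pos E.card with h0 | hpos
  · rw [Finset.card_eq_zero] at h0
    subst h0
    simp
  have hpow : tot W ^ E.card = tot W ^ (E.card - 1) * tot W := by
    rw [← pow_succ, Nat.sub_add_cancel hpos]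
  have hP : 0 < tot W ^ (E.card - 1) := pow_pos htot _
  rw [← hsum]
  rw [hpow] at hnn
  have h3 : 0 ≤ tot W ^ (E.card - 1) * ((∑ x : V → U, ∑ e ∈ E,
      (∏ f ∈ E.erase e, W (x f.1) (x f.2)) * dir a b (x e.1) (x e.2)) * tot W
        - Z W E * (E.card * 2)) := by
    calc (0 : ℝ) ≤ _ := hnn
      _ = _ := by ring
  have h4 := nonneg_of_mul_nonneg_right h3 hP
  nlinarith

theorem continuous_tot : Continuous fun W : U → U → ℝ => tot W := by
  unfold tot
  fun_prop

theorem continuous_Z (E : Finset (V × V)) : Continuous fun W : U → U → ℝ => Z W E := by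
  unfold Z
  fun_prop

theorem isCompact_ker (ε : ℝ) : IsCompact {W : U → U → ℝ | Ker W ε} := by
  refine IsCompact.of_isClosed_subset (isCompact_Icc (a := (fun _ _ => 0 : U → U → ℝ))
    (b := (fun _ _ => 1))) ?_ ?_
  · have h : {W : U → U → ℝ | Ker W ε} = (⋂ a, ⋂ b, {W : U → U → ℝ | W a b = W b a}) ∩
        (⋂ a, ⋂ b, {W : U → U → ℝ | 0 ≤ W a b}) ∩ (⋂ a, ⋂ b, {W : U → U → ℝ | W a b ≤ 1}) ∩
        {W : U → U → ℝ | (1 - ε) * (Fintype.card U : ℝ) ^ 2 ≤ tot W} := by
      ext W
      simp only [Set.mem_ofPred_eq, Set.mem_inter_iff, Set.mem_iInter]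
      exact ⟨fun h => ⟨⟨⟨h.1, h.2⟩, h.3⟩, h.4⟩, fun h => ⟨h.1.1.1, h.1.1.2, h.1.2, h.2⟩⟩
    rw [h]
    refine IsClosed.inter (IsClosed.inter (IsClosed.inter ?_ ?_) ?_) ?_
    · exact isClosed_iInter fun a => isClosed_iInter fun b =>
        isClosed_eq (by fun_prop) (by fun_prop)
    · exact isClosed_iInter fun a => isClosed_iInter fun b =>
        isClosed_le (by fun_prop) (by fun_prop)
    · exact isClosed_iInter fun a => isClosed_iInter fun b =>
        isClosed_le (by fun_prop) (by fun_prop)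
    · exact isClosed_le continuous_const continuous_tot
  · intro W hW
    exact ⟨fun a b => hW.nonneg a b, fun a b => hW.le_one a b⟩

theorem Ker.tot_pos [Nonempty U] (hW : Ker W ε) (hε1 : ε < 1) : 0 < tot W := by
  have hN : (0 : ℝ) < (Fintype.card U : ℝ) ^ 2 := by
    have : 0 < Fintype.card U := Fintype.card_pos
    positivity
  have := hW.mean
  have h : 0 < (1 - ε) * (Fintype.card U : ℝ) ^ 2 := mul_pos (by linarith) hN
  linarith

/-- a minimiser exists -/
theorem exists_isMin [Nonempty U] (E : Finset (V × V)) (hε1 : ε < 1) (hW : Ker W ε) :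
    ∃ W₀ : U → U → ℝ, IsMin W₀ ε E := by
  obtain ⟨W₀, hW₀, hmin⟩ := (isCompact_ker (U := U) ε).exists_isMinOn ⟨W, hW⟩
    (f := fun W => Z W E / tot W ^ E.card) (by
      refine ContinuousOn.div (continuous_Z E).continuousOn
        (continuous_tot.pow _).continuousOn ?_
      intro W' hW'
      exact (pow_pos (Ker.tot_pos hW' hε1) _).ne')
  refine ⟨W₀, hW₀, fun W' hW' => ?_⟩
  have h := hmin hW'
  simp only [Set.mem_ofPred_eq] at h
  rwa [div_le_div_iff₀ (pow_pos (Ker.tot_pos hW₀ hε1) _) (pow_pos (Ker.tot_pos hW' hε1) _)] at h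

theorem Z_pos [Nonempty U] (hE : Edges E D) (hW : Ker W ε) (hε0 : 0 ≤ ε) (hD : 8 * D * ε ≤ 1)
    (hε2 : 2 * ε < 1) : 0 < Z W E := by
  have h := grow (T := ∅) hE hW hε0 hD hε2.le (Finset.empty_subset E) E.card (by simp)
  have h1 : (0 : ℝ) < Z W (∅ : Finset (V × V)) := by
    have : 0 < Fintype.card U := Fintype.card_pos
    simp only [Z, Finset.prod_empty, Finset.sum_const, Finset.card_univ, nsmul_eq_mul, mul_one,
      Fintype.card_fun]
    positivity
  exact lt_of_lt_of_le (mul_pos (pow_pos (by linarith) _) h1) h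

/-- all rows of the minimiser are close to one -/
theorem rows_good [Nonempty U] (hE : Edges E D) (hiso : NoIso E) (hne : E.Nonempty)
    (hW : IsMin W ε E) (hε0 : 0 ≤ ε) (hD : 8 * D * ε ≤ 1) (hε2 : 2 * ε < 1) (a : U) :
    (1 - 12 * D * ε) * (Fintype.card U : ℝ) ≤ ∑ b, W a b := by
  have hNn : 0 < Fintype.card U := Fintype.card_pos
  have hN : (0 : ℝ) < (Fintype.card U : ℝ) := by exact_mod_cast hNn
  have hDε : 0 ≤ (D : ℝ) * ε := by positivity
  by_cases hall : ∀ b, W a b = 1
  · simp only [hall, Finset.sum_const, Finset.card_univ, nsmul_eq_mul, mul_one]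
    nlinarith
  push Not at hall
  obtain ⟨b, hb⟩ := hall
  have hb1 : W a b < 1 := lt_of_le_of_ne (hW.1.le_one a b) hb
  have hst := stationary hE.irrefl hW (by linarith) hb1
  have hZ := Z_pos hE hW.1 hε0 hD hε2
  have htot : tot W ≤ (Fintype.card U : ℝ) ^ 2 := by
    have : ∀ x ∈ (univ : Finset U), ∑ y, W x y ≤ (Fintype.card U : ℝ) := by
      intro x _
      refine (Finset.sum_le_sum fun y _ => hW.1.le_one x y).trans (le_of_eq ?_)
      simp
    refine (Finset.sum_le_sum this).trans (le_of_eq ?_)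
    simp [sq]
  have htot0 := hW.1.tot_pos (by linarith)
  set S := ∑ e ∈ E, (A W E e a b + A W E e b a) with hS
  have hS0 : 0 ≤ S := Finset.sum_nonneg fun e _ => add_nonneg
    (Finset.sum_nonneg fun x _ => Finset.prod_nonneg fun f _ => hW.1.nonneg _ _)
    (Finset.sum_nonneg fun x _ => Finset.prod_nonneg fun f _ => hW.1.nonneg _ _)
  have h1 : 2 * E.card * Z W E ≤ S := by
    have h := hst.trans (mul_le_mul_of_nonneg_right htot hS0)
    have h' : (Fintype.card U : ℝ) ^ 2 * (2 * E.card * Z W E) ≤ (Fintype.card U : ℝ) ^ 2 * S := by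
      calc _ = _ := by ring
        _ ≤ _ := h
    exact le_of_mul_le_mul_left h' (by positivity)
  have h2 : (1 - 2 * ε) ^ (3 * D) * ((Fintype.card U : ℝ) * S)
      ≤ E.card * (((Fintype.card U : ℝ) + ∑ y, W a y) * Z W E) := by
    have : ∑ e ∈ E, (1 - 2 * ε) ^ (3 * D) *
        ((Fintype.card U : ℝ) * (A W E e a b + A W E e b a))
        ≤ ∑ _e ∈ E, (((Fintype.card U : ℝ) + ∑ y, W a y) * Z W E) :=
      Finset.sum_le_sum fun e he => A_two hE hiso hW.1 hε0 hD hε2.le he a b
    rw [Finset.sum_const, nsmul_eq_mul, ← Finset.mul_sum, ← Finset.mul_sum] at this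
    exact this
  have hc : (0 : ℝ) < E.card := by exact_mod_cast Finset.card_pos.2 hne
  have hP : (0 : ℝ) < (1 - 2 * ε) ^ (3 * D) := pow_pos (by linarith) _
  have h3 : (1 - 2 * ε) ^ (3 * D) * ((Fintype.card U : ℝ) * (2 * E.card * Z W E))
      ≤ E.card * (((Fintype.card U : ℝ) + ∑ y, W a y) * Z W E) :=
    (mul_le_mul_of_nonneg_left (mul_le_mul_of_nonneg_left h1 hN.le) hP.le).trans h2
  have h4 : (E.card * Z W E) * (2 * (1 - 2 * ε) ^ (3 * D) * (Fintype.card U : ℝ))
      ≤ (E.card * Z W E) * ((Fintype.card U : ℝ) + ∑ y, W a y) := by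
    calc _ = _ := by ring
      _ ≤ _ := h3
      _ = _ := by ring
  have h5 := le_of_mul_le_mul_left h4 (mul_pos hc hZ)
  have h6 := bern (ε := ε) hε2.le (3 * D)
  push_cast at h6
  have h7 : (1 - 2 * (3 * D) * ε) * (2 * (Fintype.card U : ℝ))
      ≤ (1 - 2 * ε) ^ (3 * D) * (2 * (Fintype.card U : ℝ)) :=
    mul_le_mul_of_nonneg_right h6 (by positivity)
  nlinarith

/-- the inequality for the kernel `W` and the edges `E` -/
def Ineq (W : U → U → ℝ) (E : Finset (V × V)) : Prop :=
  (tot W / (Fintype.card U : ℝ) ^ 2) ^ E.card ≤ Z W E / (Fintype.card U : ℝ) ^ Fintype.card V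

theorem main_noIso [Nonempty U] (hE : Edges E D) (hiso : NoIso E) (hε0 : 0 ≤ ε)
    (hD : 8 * D * ε ≤ 1) (hε2 : 2 * ε < 1)
    (hgood : ∀ W : U → U → ℝ, Ker W ε →
      (∀ a, (1 - 12 * D * ε) * (Fintype.card U : ℝ) ≤ ∑ b, W a b) → Ineq W E)
    (hW : Ker W ε) : Ineq W E := by
  have hNn : 0 < Fintype.card U := Fintype.card_pos
  have hN : (0 : ℝ) < (Fintype.card U : ℝ) := by exact_mod_cast hNn
  rcases E.eq_empty_or_nonempty with rfl | hne
  · unfold Ineq Z
    simp [hN.ne']
  obtain ⟨W₀, h₀⟩ := exists_isMin E (by linarith) hW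
  have h1 := hgood W₀ h₀.1 (rows_good hE hiso hne h₀ hε0 hD hε2)
  have h2 := h₀.2 W hW
  have ht : 0 < tot W := hW.tot_pos (by linarith)
  have ht₀ : 0 < tot W₀ := h₀.1.tot_pos (by linarith)
  unfold Ineq at h1 ⊢
  rw [div_pow, div_le_div_iff₀ (by positivity) (by positivity)] at h1 ⊢
  have h3 : tot W₀ ^ E.card * (tot W ^ E.card * (Fintype.card U : ℝ) ^ Fintype.card V)
      ≤ tot W₀ ^ E.card * (Z W E * ((Fintype.card U : ℝ) ^ 2) ^ E.card) := by
    calc tot W₀ ^ E.card * (tot W ^ E.card * (Fintype.card U : ℝ) ^ Fintype.card V)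
        = (tot W₀ ^ E.card * (Fintype.card U : ℝ) ^ Fintype.card V) * tot W ^ E.card := by ring
      _ ≤ (Z W₀ E * ((Fintype.card U : ℝ) ^ 2) ^ E.card) * tot W ^ E.card :=
          mul_le_mul_of_nonneg_right h1 (by positivity)
      _ = (Z W₀ E * tot W ^ E.card) * ((Fintype.card U : ℝ) ^ 2) ^ E.card := by ring
      _ ≤ (Z W E * tot W₀ ^ E.card) * ((Fintype.card U : ℝ) ^ 2) ^ E.card :=
          mul_le_mul_of_nonneg_right h2 (by positivity)
      _ = _ := by ring
  exact le_of_mul_le_mul_left h3 (pow_pos ht₀ _)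

/-- an isolated edge is independent of the rest -/
theorem Z_iso {e : V × V} (he : e ∈ E) (hne : e.1 ≠ e.2)
    (h : ∀ f ∈ E, f ≠ e → ¬ (f.1 = e.1 ∨ f.2 = e.1 ∨ f.1 = e.2 ∨ f.2 = e.2)) (W : U → U → ℝ) :
    (Fintype.card U : ℝ) ^ 2 * Z W E = tot W * Z W (E.erase e) := by
  have hI := indep2 hne (fun a b => W a b) (fun x : V → U => ∏ f ∈ E.erase e, W (x f.1) (x f.2))
    (fun x a => prod_update W _ e.1 (fun f hf => by
      have := h f (Finset.mem_of_mem_erase hf) (Finset.ne_of_mem_erase hf); tauto) x a)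
    (fun x a => prod_update W _ e.2 (fun f hf => by
      have := h f (Finset.mem_of_mem_erase hf) (Finset.ne_of_mem_erase hf); tauto) x a)
  rw [tot, Z, Z, ← hI]
  congr 1
  refine Finset.sum_congr rfl fun x _ => ?_
  rw [Finset.mul_prod_erase E (fun f => W (x f.1) (x f.2)) he]

theorem Ineq_iso [Nonempty U] {e : V × V} (he : e ∈ E) (hne : e.1 ≠ e.2)
    (h : ∀ f ∈ E, f ≠ e → ¬ (f.1 = e.1 ∨ f.2 = e.1 ∨ f.1 = e.2 ∨ f.2 = e.2)) (ht : 0 < tot W) :
    Ineq W E ↔ Ineq W (E.erase e) := by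
  have hNn : 0 < Fintype.card U := Fintype.card_pos
  have hN : (0 : ℝ) < (Fintype.card U : ℝ) := by exact_mod_cast hNn
  have h1 := Z_iso he hne h W
  have hc : E.card = (E.erase e).card + 1 := (Finset.card_erase_add_one he).symm
  unfold Ineq
  have h2 : Z W E / (Fintype.card U : ℝ) ^ Fintype.card V
      = (tot W / (Fintype.card U : ℝ) ^ 2) *
        (Z W (E.erase e) / (Fintype.card U : ℝ) ^ Fintype.card V) := by
    rw [div_mul_div_comm, ← h1]
    rw [mul_div_mul_left _ _ (by positivity)]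
  rw [h2, hc, pow_succ, mul_comm]
  exact mul_le_mul_iff_right₀ (by positivity)

/-- the row condition can be dropped -/
theorem main [Nonempty U] (hε0 : 0 ≤ ε) (hD : 8 * D * ε ≤ 1) (hε2 : 2 * ε < 1) :
    ∀ (k : ℕ) (E : Finset (V × V)), E.card = k → Edges E D →
    (∀ W : U → U → ℝ, Ker W ε →
      (∀ a, (1 - 12 * D * ε) * (Fintype.card U : ℝ) ≤ ∑ b, W a b) → Ineq W E) →
    ∀ W : U → U → ℝ, Ker W ε → Ineq W E := by
  intro k
  induction k with
  | zero =>
    intro E hk hE hgood W hW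
    have : NoIso E := by
      rw [Finset.card_eq_zero] at hk
      subst hk
      intro e he
      simp at he
    exact main_noIso hE this hε0 hD hε2 hgood hW
  | succ k ih =>
    intro E hk hE hgood W hW
    by_cases hiso : NoIso E
    · exact main_noIso hE hiso hε0 hD hε2 hgood hW
    · unfold NoIso at hiso
      push Not at hiso
      obtain ⟨e, he, hf⟩ := hiso
      have h : ∀ f ∈ E, f ≠ e → ¬ (f.1 = e.1 ∨ f.2 = e.1 ∨ f.1 = e.2 ∨ f.2 = e.2) := by
        intro f hfE hfe
        have := hf f hfE hfe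
        tauto
      have hne := hE.irrefl e he
      rw [Ineq_iso he hne h (hW.tot_pos (by linarith))]
      refine ih (E.erase e) (by rw [Finset.card_erase_of_mem he, hk]; rfl)
        (hE.mono (Finset.erase_subset _ _)) (fun W' hW' hr => ?_) W hW
      rw [← Ineq_iso he hne h (hW'.tot_pos (by linarith))]
      exact hgood W' hW' hr

end Vale.Agent.P050.MinRed
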