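import Vale.Agent.P050.R2.H300.Defs
import Vale.Agent.P050.R3.H904.MinRed

set_option linter.all false

/-!
# P050, dense targets: the row condition can be dropped
-/

open Finset

namespace Vale.Agent.P050.Dense

open Vale.Agent.P050

section

variable {V : Type} [Fintype V] [DecidableEq V] (H : SimpleGraph V) [DecidableRel H.Adj]

/-- the edges of `H`, each with one orientation -/
noncomputable def orient : Finset (V × V) := H.edgeFinset.image fun e => (Quot.out e : V × V)

omit [Fintype V] [DecidableEq V] in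
theorem mk_out (e : Sym2 V) : s((Quot.out e : V × V).1, (Quot.out e : V × V).2) = e :=
  Quot.out_eq e

theorem out_inj : Set.InjOn (fun e : Sym2 V => (Quot.out e : V × V)) (H.edgeFinset : Set (Sym2 V)) := by
  intro e _ f _ h
  rw [← mk_out e, ← mk_out f]
  exact congrArg (fun p : V × V => s(p.1, p.2)) h

theorem orient_card : (orient H).card = H.edgeFinset.card :=
  Finset.card_image_of_injOn (out_inj H)

theorem mem_orient {p : V × V} (hp : p ∈ orient H) :
    H.Adj p.1 p.2 ∧ (Quot.out (s(p.1, p.2)) : V × V) = p := by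
  obtain ⟨e, he, rfl⟩ := Finset.mem_image.1 hp
  refine ⟨?_, ?_⟩
  · rw [SimpleGraph.mem_edgeFinset, ← mk_out e, SimpleGraph.mem_edgeSet] at he
    exact he
  · exact congrArg Quot.out (mk_out e)

theorem orient_edges {D : ℕ} (hD : ∀ v, H.degree v ≤ D) : MinRed.Edges (orient H) D where
  irrefl p hp := (mem_orient H hp).1.ne
  simple p hp hp' := by
    have h1 := (mem_orient H hp).2
    have h2 := (mem_orient H hp').2
    have hne := (mem_orient H hp).1.ne
    simp only at h2
    rw [Sym2.eq_swap] at h2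
    rw [h1] at h2
    exact hne (congrArg Prod.fst h2)
  deg v := by
    refine le_trans ?_ (hD v)
    rw [← SimpleGraph.card_incidenceFinset_eq_degree]
    refine Finset.card_le_card_of_injOn (fun p : V × V => s(p.1, p.2)) ?_ ?_
    · intro p hp
      rw [Finset.mem_coe, MinRed.at_, Finset.mem_filter] at hp
      have h := (mem_orient H hp.1).1
      rw [Finset.mem_coe, SimpleGraph.mem_incidenceFinset]
      refine ⟨h, ?_⟩
      rcases hp.2 with h | h
      · rw [← h]; exact Sym2.mem_mk_left _ _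
      · rw [← h]; exact Sym2.mem_mk_right _ _
    · intro p hp q hq h
      rw [Finset.mem_coe, MinRed.at_, Finset.mem_filter] at hp hq
      rw [← (mem_orient H hp.1).2, ← (mem_orient H hq.1).2]
      exact congrArg Quot.out h

theorem prod_orient {X : Type} [Fintype X] (W : X → X → ℝ) (hs : ∀ x y, W x y = W y x)
    (z : V → X) : ∏ e ∈ H.edgeFinset, ev W hs z e = ∏ p ∈ orient H, W (z p.1) (z p.2) := by
  rw [orient, Finset.prod_image (out_inj H)]
  refine Finset.prod_congr rfl fun e _ => ?_
  conv_lhs => rw [← mk_out e]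
  rfl

theorem tden_eq {X : Type} [Fintype X] (W : X → X → ℝ) (hs : ∀ x y, W x y = W y x) :
    tden H W hs = MinRed.Z W (orient H) / (Fintype.card X : ℝ) ^ Fintype.card V := by
  rw [tden, MinRed.Z]
  simp only [prod_orient]

theorem pden_eq {X : Type} [Fintype X] (W : X → X → ℝ) :
    pden W = MinRed.tot W / (Fintype.card X : ℝ) ^ 2 := rfl

theorem ineq_iff {X : Type} [Fintype X] (W : X → X → ℝ) (hs : ∀ x y, W x y = W y x) :
    MinRed.Ineq W (orient H) ↔ pden W ^ H.edgeFinset.card ≤ tden H W hs := by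
  rw [MinRed.Ineq, ← pden_eq, ← tden_eq H W hs, orient_card]

theorem pden_equiv {X Y : Type} [Fintype X] [Fintype Y] (φ : Y ≃ X) (W : X → X → ℝ) :
    pden (fun x y => W (φ x) (φ y)) = pden W := by
  rw [pden, pden, Fintype.card_congr φ]
  congr 1
  rw [← Equiv.sum_comp φ (fun x => ∑ y, W x y)]
  exact Finset.sum_congr rfl fun x _ => Equiv.sum_comp φ (fun y => W (φ x) y)

theorem tden_equiv {X Y : Type} [Fintype X] [Fintype Y] (φ : Y ≃ X) (W : X → X → ℝ)
    (hs : ∀ x y, W x y = W y x) :
    tden H (fun x y => W (φ x) (φ y)) (fun x y => hs (φ x) (φ y)) = tden H W hs := by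
  rw [tden_eq, tden_eq, Fintype.card_congr φ, MinRed.Z, MinRed.Z]
  congr 1
  rw [← Equiv.sum_comp (Equiv.arrowCongr (Equiv.refl V) φ)]
  rfl

/-- **M10**: the inequality for kernels all of whose rows are close to one implies the inequality
for all kernels with values in `[0, 1]` and large mean. -/
theorem remove_rows {D : ℕ} (hD : ∀ v, H.degree v ≤ D) {θ ε : ℝ} (hε0 : 0 ≤ ε)
    (hε : 12 * D * ε ≤ θ) (hε8 : 8 * D * ε ≤ 1)
    (hgood : ∀ (n : ℕ) (W : Fin n → Fin n → ℝ) (hs : ∀ x y, W x y = W y x), 0 < n →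
      (∀ x y, 0 ≤ W x y) → (∀ x y, W x y ≤ 1) → (∀ x, (1 - θ) * n ≤ ∑ y, W x y) →
      pden W ^ H.edgeFinset.card ≤ tden H W hs)
    {X : Type} [Fintype X] [Nonempty X] (W : X → X → ℝ) (hs : ∀ x y, W x y = W y x)
    (h0 : ∀ x y, 0 ≤ W x y) (h1 : ∀ x y, W x y ≤ 1) (hp : 1 - ε ≤ pden W) :
    pden W ^ H.edgeFinset.card ≤ tden H W hs := by
  rcases Nat.eq_zero_or_pos D with hD0 | hD0
  · have hE : H.edgeFinset = ∅ := by
      rw [Finset.eq_empty_iff_forall_notMem]
      intro e he
      induction e using Sym2.ind with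
      | _ u v =>
        rw [SimpleGraph.mem_edgeFinset, SimpleGraph.mem_edgeSet] at he
        have h := hD u
        have : 0 < H.degree u := (SimpleGraph.degree_pos_iff_exists_adj _ _).2 ⟨v, he⟩
        omega
    have hX : (0 : ℝ) < (Fintype.card X : ℝ) := by exact_mod_cast Fintype.card_pos
    rw [tden]
    simp [hE, hX.ne']
  have hε2 : 2 * ε < 1 := by
    have : (1 : ℝ) ≤ D := by exact_mod_cast hD0
    nlinarith
  set n := Fintype.card X with hn
  have hn0 : 0 < n := Fintype.card_pos
  have : Nonempty (Fin n) := ⟨⟨0, hn0⟩⟩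
  set φ : Fin n ≃ X := (Fintype.equivFin X).symm with hφ
  rw [← pden_equiv φ W, ← tden_equiv H φ W hs]
  set W' : Fin n → Fin n → ℝ := fun x y => W (φ x) (φ y) with hW'
  have hN : (0 : ℝ) < (n : ℝ) ^ 2 := by positivity
  rw [← ineq_iff]
  refine MinRed.main hε0 hε8 hε2 _ (orient H) rfl (orient_edges H hD) ?_ W' ?_
  · intro W₁ hK hr
    rw [ineq_iff H W₁ hK.symm]
    refine hgood n W₁ hK.symm hn0 hK.nonneg hK.le_one fun x => ?_
    have := hr x
    rw [Fintype.card_fin] at this
    refine le_trans ?_ this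
    refine mul_le_mul_of_nonneg_right ?_ (by positivity)
    linarith
  · refine ⟨fun a b => hs _ _, fun a b => h0 _ _, fun a b => h1 _ _, ?_⟩
    rw [← pden_equiv φ W, pden_eq, Fintype.card_fin, le_div_iff₀ hN] at hp
    rw [Fintype.card_fin]
    exact hp

end

end Vale.Agent.P050.Dense
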