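import Vale.Agent.P050.R3.H904.Main2
import Vale.Agent.P050.R3.H904.ToGraph
import Vale.Agent.P050.R2.H300.Final
import Vale.Agent.P050.R2.H111.Rows

set_option linter.all false

/-!
Dense targets, phase 2: kernels and graphs of edge density at least `1 - c D ^ (-3)`.
-/

open MeasureTheory Finset

namespace Vale.Agent.P050.Dense

open Vale.Agent.P050

/-- all finite kernels of large mean -/
theorem dense_kernel2' {V X : Type} [Fintype V] [DecidableEq V] [Fintype X] [Nonempty X]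
    (H : SimpleGraph V) [DecidableRel H.Adj] (hH : H.IsBipartite) {D : ℕ}
    (hD : ∀ v, H.degree v ≤ D)
    (W : X → X → ℝ) (hs : ∀ x y, W x y = W y x) (h0 : ∀ x y, 0 ≤ W x y)
    (h1 : ∀ x y, W x y ≤ 1) {ε : ℝ} (hε0 : 0 ≤ ε) (hε : ε * (16 * 10 ^ 12 * (D:ℝ) ^ 3) ≤ 1)
    (hp : 1 - ε ≤ pden W) :
    pden W ^ H.edgeFinset.card ≤ tden H W hs := by
  classical
  rcases Nat.eq_zero_or_pos D with h | hD1
  · have he : H.edgeFinset = ∅ := edgeFinset_eq_empty H (fun v => h ▸ hD v)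
    unfold tden
    rw [he]
    simp only [Finset.card_empty, pow_zero, Finset.prod_empty, Finset.sum_const, nsmul_eq_mul,
      mul_one]
    rw [Finset.card_univ, Fintype.card_fun]
    push_cast
    rw [div_self]
    positivity
  · have hDpos : (1:ℝ) ≤ D := by exact_mod_cast hD1
    have hD2 : (1:ℝ) ≤ (D:ℝ) ^ 2 := one_le_pow₀ hDpos
    have h3 : (D:ℝ) ^ 3 = (D:ℝ) ^ 2 * D := by ring
    refine remove_rows2 H hD (θ := 1 / (10 ^ 12 * (D:ℝ) ^ 3)) (ε := ε) hε0 ?_ ?_ ?_ W hs h0 h1 hp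
    · rw [le_div_iff₀ (by positivity)]
      calc 16 * ε * (10 ^ 12 * (D:ℝ) ^ 3) = ε * (16 * 10 ^ 12 * (D:ℝ) ^ 3) := by ring
        _ ≤ 1 := hε
    · refine le_trans ?_ hε
      have h4 : (D:ℝ) ^ 2 ≤ (D:ℝ) ^ 3 := by rw [h3]; nlinarith
      have h5 : 48 * (D:ℝ) ^ 2 ≤ 16 * 10 ^ 12 * (D:ℝ) ^ 3 := by nlinarith
      calc 48 * (D:ℝ) ^ 2 * ε = ε * (48 * (D:ℝ) ^ 2) := by ring
        _ ≤ ε * (16 * 10 ^ 12 * (D:ℝ) ^ 3) := mul_le_mul_of_nonneg_left h5 hε0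
    · intro n W' hs' hn' h0' h1' hr
      have : Nonempty (Fin n) := ⟨⟨0, hn'⟩⟩
      refine rows_good3 H hH hD1 hD W' hs' h0' h1' ?_
      intro x
      rw [Fintype.card_fin]
      exact hr x

theorem eps_ok2 (D : ℕ) : 1 / (10 ^ 5 * (D:ℝ)) ^ 3 * (16 * 10 ^ 12 * (D:ℝ) ^ 3) ≤ 1 := by
  rcases Nat.eq_zero_or_pos D with h | hD1
  · subst h; norm_num
  · have hDpos : (1:ℝ) ≤ D := by exact_mod_cast hD1
    rw [div_mul_eq_mul_div, div_le_one (by positivity)]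
    have : (10 ^ 5 * (D:ℝ)) ^ 3 = 10 ^ 15 * (D:ℝ) ^ 3 := by ring
    rw [this]
    have h3 : 0 ≤ (D:ℝ) ^ 3 := by positivity
    nlinarith

/-- all finite kernels of large mean -/
theorem dense_kernel2 {V X : Type} [Fintype V] [DecidableEq V] [Fintype X] [Nonempty X]
    (H : SimpleGraph V) [DecidableRel H.Adj] (hH : H.IsBipartite) {D : ℕ}
    (hD : ∀ v, H.degree v ≤ D)
    (W : X → X → ℝ) (hs : ∀ x y, W x y = W y x) (h0 : ∀ x y, 0 ≤ W x y)
    (h1 : ∀ x y, W x y ≤ 1) (hp : 1 - 1 / (10 ^ 5 * (D:ℝ)) ^ 3 ≤ pden W) :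
    pden W ^ H.edgeFinset.card ≤ tden H W hs :=
  dense_kernel2' H hH hD W hs h0 h1 (by positivity) (eps_ok2 D) hp

/-- all finite graphs of large edge density -/
theorem dense_graph2 {V X : Type} [Finite V] [Finite X] [Nonempty X] (H : SimpleGraph V)
    (G : SimpleGraph X) (hH : H.IsBipartite) (D : ℕ) (hdeg : ∀ v, (H.neighborSet v).ncard ≤ D)
    (hp : 1 - 1 / (10 ^ 5 * (D:ℝ)) ^ 3 ≤ edgeDensity G) :
    edgeDensity G ^ Nat.card H.edgeSet ≤ homDensity H G := by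
  classical
  have := Fintype.ofFinite V
  refine graph_of_kernel H (fun n W hs hn h0 h1 hq => ?_) G hp
  have : Nonempty (Fin n) := ⟨⟨0, hn⟩⟩
  refine dense_kernel2 H hH (D := D) (fun v => ?_) W hs h0 h1 hq
  have := hdeg v
  rw [Set.ncard_eq_toFinset_card'] at this
  rwa [← SimpleGraph.card_neighborFinset_eq_degree]

end Vale.Agent.P050.Dense
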