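import Vale.Agent.P050.R2.H300.Main
import Vale.Agent.P050.R2.H111.Rows
import Vale.Agent.P050.R2.H234.PolyBd
import Vale.Agent.P050.R2.H774.Marg6

set_option linter.all false

/-!
Dense targets, phase 2: final assembly with radius `c D ^ (-3)`.
-/

open MeasureTheory Finset

namespace Vale.Agent.P050.Dense

open Vale.Agent.P050

section

variable {V : Type*} [Fintype V] [DecidableEq V] {Ω : Type*} [MeasurableSpace Ω]

theorem GG2_nonneg (μ : Measure Ω) [IsProbabilityMeasure μ] {U : Sym2 Ω → ℝ} {κ η : ℝ}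
    {N : V → Finset V} {B : Finset V} {D : ℕ} (hN : Bip N B D) (hU : Ker μ U κ η) (ε : ℝ) :
    0 ≤ GG2 μ U N B ε := by
  classical
  refine Finset.sum_nonneg fun γ hγ => mul_nonneg (Real.exp_pos _).le ?_
  simp only [cnS, Finset.mem_filter, Finset.mem_powerset] at hγ
  exact (ck_nonneg μ _).trans (ck_le_phi μ hN hU hγ.1 hγ.2.2)

/-- one side: the contribution of the vertices outside `B` -/
theorem side_le2 (μ : Measure Ω) [IsProbabilityMeasure μ] {U : Sym2 Ω → ℝ} {κ η σ κ₀ : ℝ}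
    {H : SimpleGraph V} [DecidableRel H.Adj] {D : ℕ} (hD1 : 1 ≤ D) (hD : ∀ v, H.degree v ≤ D)
    {B : Finset V} (hB : ∀ u v, H.Adj u v → (u ∈ B ↔ v ∉ B)) (hU : Ker μ U κ η)
    (hn : Num D κ η σ) (hσ : 0 < σ) (hσD : σ * (10 ^ 11 * (D:ℝ) ^ 2) ≤ 1)
    {g : Ω → ℝ} (hgm : BM g) (hg0 : ∫ s, g s ∂μ = 0) (hκ₀ : 0 ≤ κ₀)
    (hg2 : ∫ s, g s ^ 2 ∂μ ≤ 11 / 5 * κ₀) :
    -(11 / 80 * GG2 μ U (fun v => H.neighborFinset v) B (2 * σ * ((D:ℝ) ^ 2 + 1))) ≤
      ∑ v ∈ univ \ B, ((H.degree v - 1 : ℕ) : ℝ) * (κ₀ +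
        ZZg μ U (fun v => H.neighborFinset v) g v B / ZZ μ U (fun v => H.neighborFinset v) B) := by
  have hN := bip_of hD hB
  have hm := marg_le2 μ hN hU hn hσ hσD hgm hg0
  set G := GG2 μ U (fun v => H.neighborFinset v) B (2 * σ * ((D:ℝ) ^ 2 + 1)) with hG
  have hG0 : 0 ≤ G := GG2_nonneg μ hN hU _
  set q : V → ℝ := fun v => ZZg μ U (fun v => H.neighborFinset v) g v B /
    ZZ μ U (fun v => H.neighborFinset v) B with hq
  have hDpos : (0:ℝ) < D := by exact_mod_cast hD1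
  have hm' : ∑ v ∈ univ \ B, (D:ℝ) * q v ^ 2 ≤ 1 / 4 * G * ∫ s, g s ^ 2 ∂μ := hm
  rcases hκ₀.eq_or_lt with h0 | h0
  · -- `κ₀ = 0`
    have hg2' : ∫ s, g s ^ 2 ∂μ ≤ 0 := by rw [← h0] at hg2; linarith
    have h1 : ∑ v ∈ univ \ B, (D:ℝ) * q v ^ 2 ≤ 0 := by
      have : 1 / 4 * G * ∫ s, g s ^ 2 ∂μ ≤ 0 :=
        mul_nonpos_of_nonneg_of_nonpos (by positivity) hg2'
      linarith
    have h2 : ∀ v ∈ univ \ B, (D:ℝ) * q v ^ 2 = 0 := by
      have h3 : ∀ v ∈ univ \ B, 0 ≤ (D:ℝ) * q v ^ 2 := fun v _ => by positivity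
      exact (Finset.sum_eq_zero_iff_of_nonneg h3).1 (le_antisymm h1 (Finset.sum_nonneg h3))
    have h4 : ∀ v ∈ univ \ B, ((H.degree v - 1 : ℕ) : ℝ) * (κ₀ + q v) = 0 := by
      intro v hv
      have h5 := h2 v hv
      have h6 : q v = 0 := by
        rcases mul_eq_zero.1 h5 with h | h
        · exact absurd h hDpos.ne'
        · exact pow_eq_zero_iff (two_ne_zero) |>.1 h
      rw [h6, ← h0]; ring
    rw [Finset.sum_eq_zero h4]
    linarith
  · have h1 : ∀ v ∈ univ \ B, -((D:ℝ) * q v ^ 2 / (4 * κ₀)) ≤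
        ((H.degree v - 1 : ℕ) : ℝ) * (κ₀ + q v) := by
      intro v _
      have hd : ((H.degree v - 1 : ℕ) : ℝ) ≤ D := by
        exact_mod_cast (Nat.sub_le _ _).trans (hD v)
      have hd0 : (0:ℝ) ≤ ((H.degree v - 1 : ℕ) : ℝ) := Nat.cast_nonneg _
      have h2 : -(q v ^ 2 / (4 * κ₀)) ≤ κ₀ + q v := by
        rw [neg_le_iff_add_nonneg, ← sub_nonneg]
        have : κ₀ + q v + q v ^ 2 / (4 * κ₀) = (2 * κ₀ + q v) ^ 2 / (4 * κ₀) := by
          field_simp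
          ring
        rw [sub_zero, this]
        positivity
      have h3 : 0 ≤ q v ^ 2 / (4 * κ₀) := by positivity
      calc -((D:ℝ) * q v ^ 2 / (4 * κ₀)) = -((D:ℝ) * (q v ^ 2 / (4 * κ₀))) := by ring
        _ ≤ -(((H.degree v - 1 : ℕ) : ℝ) * (q v ^ 2 / (4 * κ₀))) :=
            neg_le_neg (mul_le_mul_of_nonneg_right hd h3)
        _ = ((H.degree v - 1 : ℕ) : ℝ) * (-(q v ^ 2 / (4 * κ₀))) := by ring
        _ ≤ _ := mul_le_mul_of_nonneg_left h2 hd0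
    refine le_trans ?_ (Finset.sum_le_sum h1)
    rw [Finset.sum_neg_distrib, ← Finset.sum_div, neg_le_neg_iff, div_le_iff₀ (by positivity)]
    have h5 : 1 / 4 * G * ∫ s, g s ^ 2 ∂μ ≤ 1 / 4 * G * (11 / 5 * κ₀) :=
      mul_le_mul_of_nonneg_left hg2 (by positivity)
    nlinarith [hm', h5]

end

/-- kernels all of whose row averages are close to `1` -/
theorem rows_good3 {V X : Type} [Fintype V] [DecidableEq V] [Fintype X] [DecidableEq X] [Nonempty X]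
    (H : SimpleGraph V) [DecidableRel H.Adj] (hH : H.IsBipartite) {D : ℕ} (hD1 : 1 ≤ D)
    (hD : ∀ v, H.degree v ≤ D)
    (W : X → X → ℝ) (hs : ∀ x y, W x y = W y x) (h0 : ∀ x y, 0 ≤ W x y)
    (h1 : ∀ x y, W x y ≤ 1)
    (hmin : ∀ x, (1 - 1 / (10 ^ 12 * (D:ℝ) ^ 3)) * Fintype.card X ≤ ∑ y, W x y) :
    pden W ^ H.edgeFinset.card ≤ tden H W hs := by
  have hDpos : (1:ℝ) ≤ D := by exact_mod_cast hD1
  have hD3 : (1:ℝ) ≤ (D:ℝ) ^ 3 := one_le_pow₀ hDpos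
  set θ : ℝ := 1 / (10 ^ 12 * (D:ℝ) ^ 3) with hθ
  have hθ0 : 0 < θ := by positivity
  have hθD : θ * (10 ^ 12 * (D:ℝ) ^ 3) = 1 := by rw [hθ]; field_simp
  have hθ9 : θ ≤ 1 / 10 ^ 9 := by
    rw [hθ]
    apply one_div_le_one_div_of_le (by norm_num)
    linarith
  obtain ⟨m, μ, U, g, κ₀, hμ, hU, hgm, hg0, hκ₀, hg2, hmain⟩ :=
    kernel_reduction W hs h0 h1 H hθ0 (by linarith) hmin
  obtain ⟨C⟩ := hH
  set B₁ : Finset V := univ.filter (fun v => C v = 0) with hB₁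
  set B₂ : Finset V := univ.filter (fun v => C v ≠ 0) with hB₂
  have hC : ∀ u v, H.Adj u v → (C u = 0 ↔ C v ≠ 0) := by
    intro u v huv
    have h := C.valid huv
    have h3 := (C u).is_lt
    have h4 := (C v).is_lt
    constructor
    · intro h5 h6
      exact h (h5.trans h6.symm)
    · intro h5
      by_contra h6
      apply h
      have h7 : (C u : ℕ) ≠ 0 := fun h => h6 (Fin.ext h)
      have h8 : (C v : ℕ) ≠ 0 := fun h => h5 (Fin.ext h)
      ext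
      omega
  have hb₁ : ∀ u v, H.Adj u v → (u ∈ B₁ ↔ v ∉ B₁) := by
    intro u v huv
    simp only [hB₁, Finset.mem_filter, Finset.mem_univ, true_and]
    exact hC u v huv
  have hb₂ : ∀ u v, H.Adj u v → (u ∈ B₂ ↔ v ∉ B₂) := by
    intro u v huv
    simp only [hB₂, Finset.mem_filter, Finset.mem_univ, true_and, not_not]
    have h := hC v u huv.symm
    tauto
  set σ : ℝ := 10 * D * θ with hσ
  have hσ0 : 0 < σ := by positivity
  have hσD : σ * (10 ^ 11 * (D:ℝ) ^ 2) ≤ 1 := by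
    have : σ * (10 ^ 11 * (D:ℝ) ^ 2) = θ * (10 ^ 12 * (D:ℝ) ^ 3) := by rw [hσ]; ring
    rw [this, hθD]
  have hD2 : (1:ℝ) ≤ (D:ℝ) ^ 2 := one_le_pow₀ hDpos
  have hσ8 : σ ≤ 1 / 10 ^ 8 := by
    rw [le_div_iff₀ (by norm_num)]
    calc σ * 10 ^ 8 ≤ σ * (10 ^ 11 * (D:ℝ) ^ 2) := by
          apply mul_le_mul_of_nonneg_left _ hσ0.le
          nlinarith
      _ ≤ 1 := hσD
  have hn : Num D (5 * θ) (3 * θ) σ := by
    refine ⟨hD1, ?_, ?_, hσ0.le, by linarith⟩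
    · have h2 : (D:ℝ) * (3 * θ) ≤ 1 / 2 := by
        have : (D:ℝ) * (3 * θ) = 3 / 10 * σ := by rw [hσ]; ring
        rw [this]; linarith
      calc (1 + 3 * θ) ^ D ≤ (Real.exp (3 * θ)) ^ D := by
            apply pow_le_pow_left₀ (by positivity)
            linarith [Real.add_one_le_exp (3 * θ)]
        _ = Real.exp (D * (3 * θ)) := by rw [← Real.exp_nat_mul]
        _ ≤ Real.exp (1 / 2) := Real.exp_le_exp.2 h2
        _ ≤ 2 := by
            have h3 : Real.exp (1 / 2) ^ 2 ≤ 2 ^ 2 := by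
              rw [← Real.exp_nat_mul]
              norm_num
              linarith [Real.exp_one_lt_d9]
            exact le_of_sq_le_sq h3 (by norm_num)
    · rw [hσ]; ring_nf; rfl
  set N : V → Finset V := fun v => H.neighborFinset v with hN
  have hN₁ : Bip N B₁ D := bip_of hD hb₁
  have hN₂ : Bip N B₂ D := bip_of hD hb₂
  obtain ⟨e₁, e₁'⟩ := dens_eq μ H hU B₁ hb₁ hgm
  obtain ⟨e₂, e₂'⟩ := dens_eq μ H hU B₂ hb₂ hgm
  set Z : ℝ := ∫ z, ∏ e ∈ H.edgeFinset, (1 + U (e.map z)) ∂(piM V μ) with hZ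
  have hZpos : 0 < Z := by
    rw [e₁]
    exact (ZZ_ratio μ hN₁ hU hn (Finset.Subset.refl _)).1
  set ε : ℝ := 2 * σ * ((D:ℝ) ^ 2 + 1) with hε
  have l₁ : 1 / 2 * GG2 μ U N B₁ ε ≤ Real.log Z := by
    rw [e₁]; exact logZ_ge2 μ hN₁ hU hn hσ0 hσD
  have l₂ : 1 / 2 * GG2 μ U N B₂ ε ≤ Real.log Z := by
    rw [e₂]; exact logZ_ge2 μ hN₂ hU hn hσ0 hσD
  have s₁ := side_le2 μ hD1 hD hb₁ hU hn hσ0 hσD hgm hg0 hκ₀ hg2
  have s₂ := side_le2 μ hD1 hD hb₂ hU hn hσ0 hσD hgm hg0 hκ₀ hg2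
  have g₁ := GG2_nonneg μ hN₁ hU ε
  have g₂ := GG2_nonneg μ hN₂ hU ε
  have hS := hmain Z rfl hZpos
  set S : ℝ := ∑ v, ((H.degree v - 1 : ℕ) : ℝ) * (κ₀ +
    (∫ z, g (z v) * ∏ e ∈ H.edgeFinset, (1 + U (e.map z)) ∂(piM V μ)) / Z) with hSdef
  have hsplit : S = (∑ v ∈ univ \ B₁, ((H.degree v - 1 : ℕ) : ℝ) * (κ₀ +
        ZZg μ U N g v B₁ / ZZ μ U N B₁)) + ∑ v ∈ univ \ B₂, ((H.degree v - 1 : ℕ) : ℝ) * (κ₀ +
        ZZg μ U N g v B₂ / ZZ μ U N B₂) := by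
    have hun : (univ : Finset V) = (univ \ B₁) ∪ (univ \ B₂) := by
      ext v
      simp only [hB₁, hB₂, Finset.mem_union, Finset.mem_sdiff, Finset.mem_filter,
        Finset.mem_univ, true_and, not_not]
      tauto
    have hdis : Disjoint (univ \ B₁) (univ \ B₂) := by
      rw [Finset.disjoint_left]
      intro v
      simp only [hB₁, hB₂, Finset.mem_sdiff, Finset.mem_filter,
        Finset.mem_univ, true_and, not_not]
      tauto
    rw [hSdef, Finset.sum_congr hun (fun _ _ => rfl), Finset.sum_union hdis]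
    congr 1
    · refine Finset.sum_congr rfl fun v hv => ?_
      rw [Finset.mem_sdiff] at hv
      rw [e₁' v hv.2, ← e₁]
    · refine Finset.sum_congr rfl fun v hv => ?_
      rw [Finset.mem_sdiff] at hv
      rw [e₂' v hv.2, ← e₂]
  have hkey : 0 ≤ Real.log Z + S := by
    rw [hsplit]
    linarith
  have hone : 1 ≤ Z * Real.exp S := by
    have : Z * Real.exp S = Real.exp (Real.log Z + S) := by
      rw [Real.exp_add, Real.exp_log hZpos]
    rw [this]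
    exact Real.one_le_exp hkey
  have hp0 : 0 ≤ pden W := by
    unfold pden
    exact div_nonneg (Finset.sum_nonneg fun x _ => Finset.sum_nonneg fun y _ => h0 x y)
      (by positivity)
  calc pden W ^ H.edgeFinset.card = pden W ^ H.edgeFinset.card * 1 := by ring
    _ ≤ pden W ^ H.edgeFinset.card * (Z * Real.exp S) :=
        mul_le_mul_of_nonneg_left hone (pow_nonneg hp0 _)
    _ = pden W ^ H.edgeFinset.card * Z * Real.exp S := by ring
    _ ≤ tden H W hs := hS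

end Vale.Agent.P050.Dense
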