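import Vale.Agent.P050.R2.H111.Rows

set_option linter.all false

/-!
Sharpest form of M10: if `200 D ε ≤ 1` and the edges are two-coloured, all the rows of the
minimiser have deficit at most `36 ε`. Part 1: moments and the contribution of one vertex.
-/

open Finset Function

namespace Vale.Agent.P050.MinRed

variable {V U : Type} [Fintype V] [DecidableEq V] [Fintype U]
variable {E : Finset (V × V)} {D : ℕ} {W : U → U → ℝ} {ε : ℝ}

/-- the edges of `T` which do not touch `v` -/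
def off (T : Finset (V × V)) (v : V) : Finset (V × V) :=
  T.filter fun g => ¬ (g.1 = v ∨ g.2 = v)

theorem off_subset (T : Finset (V × V)) (v : V) : off T v ⊆ T := filter_subset _ _

theorem mem_off {T : Finset (V × V)} {v : V} {g : V × V} :
    g ∈ off T v ↔ g ∈ T ∧ ¬ (g.1 = v ∨ g.2 = v) := by
  rw [off, mem_filter]

theorem off_ne {T : Finset (V × V)} {v : V} : ∀ g ∈ off T v, g.1 ≠ v ∧ g.2 ≠ v := by
  intro g hg
  rw [mem_off] at hg
  tauto

theorem card_sdiff_off {T : Finset (V × V)} (hT : T ⊆ E) (v : V) :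
    (T \ off T v).card ≤ (at_ E v).card := by
  refine card_le_card ?_
  intro g hg
  rw [mem_sdiff, mem_off] at hg
  rw [at_, mem_filter]
  have h1 := hg.1
  have h2 := hT h1
  have h3 := hg.2
  tauto

section bounds

variable [Nonempty U]

theorem grow3 (hE : Edges E D) (hW : Ker W ε) (hε0 : 0 ≤ ε) (hD : 200 * D * ε ≤ 1)
    (hε2 : 2 * ε ≤ 1) {S T : Finset (V × V)} (hS : S ⊆ E) (hT : T ⊆ S) {k : ℕ}
    (hk : (S \ T).card ≤ k) : (1 - 2 * k * ε) * Z W T ≤ Z W S := by
  have hDε : 0 ≤ (D : ℝ) * ε := by positivity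
  have h := grow (hE.mono hS) hW hε0 (by nlinarith) hε2 hT k hk
  have h1 := bern (ε := ε) hε2 k
  exact (mul_le_mul_of_nonneg_right h1 (Z_nonneg hW.nonneg T)).trans h

theorem grow3' (hE : Edges E D) (hW : Ker W ε) (hε0 : 0 ≤ ε) (hD : 200 * D * ε ≤ 1)
    (hε2 : 2 * ε ≤ 1) {S T : Finset (V × V)} (hS : S ⊆ E) (hT : T ⊆ S) {k : ℕ}
    (hk : (S \ T).card ≤ k) (hkD : 4 * k * ε ≤ 1) : Z W T ≤ (1 + 4 * k * ε) * Z W S := by
  have h := grow3 hE hW hε0 hD hε2 hS hT hk
  have hZ := Z_nonneg hW.nonneg T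
  have hkε : 0 ≤ (k : ℝ) * ε := by positivity
  have h1 : (1 + 4 * k * ε) * ((1 - 2 * k * ε) * Z W T) ≤ (1 + 4 * k * ε) * Z W S :=
    mul_le_mul_of_nonneg_left h (by nlinarith)
  have h2 : 1 ≤ (1 + 4 * k * ε) * (1 - 2 * k * ε) := by nlinarith
  have h3 := mul_le_mul_of_nonneg_right h2 hZ
  linarith

theorem grow_off (hE : Edges E D) (hW : Ker W ε) (hε0 : 0 ≤ ε) (hD : 200 * D * ε ≤ 1)
    (hε2 : 2 * ε ≤ 1) {T : Finset (V × V)} (hT : T ⊆ E) (v : V) :
    Z W (off T v) ≤ (1 + 4 * (at_ E v).card * ε) * Z W T := by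
  refine grow3' hE hW hε0 hD hε2 hT (off_subset T v) (card_sdiff_off hT v) ?_
  have h1 : ((at_ E v).card : ℝ) ≤ D := by exact_mod_cast hE.deg v
  nlinarith

/-- first moments, upper bound -/
theorem y_up (hE : Edges E D) (hW : Ker W ε) (hε0 : 0 ≤ ε) (hD : 200 * D * ε ≤ 1)
    (hε2 : 2 * ε ≤ 1) {T : Finset (V × V)} (hT : T ⊆ E) (v : V) (a : U) :
    (Fintype.card U : ℝ) * ∑ x : V → U, (1 - W a (x v)) * ∏ g ∈ T, W (x g.1) (x g.2) ≤
      dfc W a * ((1 + 4 * (at_ E v).card * ε) * Z W T) := by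
  have hN : (0 : ℝ) < (Fintype.card U : ℝ) := by exact_mod_cast Fintype.card_pos
  have hσ0 : 0 ≤ dfc W a := sum_nonneg fun y _ => by have := hW.le_one a y; linarith
  have h1 : ∑ x : V → U, (1 - W a (x v)) * ∏ g ∈ T, W (x g.1) (x g.2) ≤
      ∑ x : V → U, (1 - W a (x v)) * ∏ g ∈ off T v, W (x g.1) (x g.2) :=
    sum_le_sum fun x _ => mul_le_mul_of_nonneg_left
      (prod_mono hW.nonneg hW.le_one (off_subset T v) x)
      (by have := hW.le_one a (x v); linarith)
  have h2 := indep1 v (fun y => 1 - W a y) (fun x : V → U => ∏ g ∈ off T v, W (x g.1) (x g.2))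
    (fun x b => prod_update W (off T v) v off_ne x b)
  calc (Fintype.card U : ℝ) * ∑ x : V → U, (1 - W a (x v)) * ∏ g ∈ T, W (x g.1) (x g.2)
      ≤ (Fintype.card U : ℝ) * ∑ x : V → U, (1 - W a (x v)) *
        ∏ g ∈ off T v, W (x g.1) (x g.2) := mul_le_mul_of_nonneg_left h1 hN.le
    _ = dfc W a * Z W (off T v) := h2
    _ ≤ _ := mul_le_mul_of_nonneg_left (grow_off hE hW hε0 hD hε2 hT v) hσ0

/-- second moments, lower bound -/
theorem p_low (hE : Edges E D) (hW : Ker W ε) (hε0 : 0 ≤ ε) (hD : 200 * D * ε ≤ 1)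
    (hε2 : 2 * ε ≤ 1) {T : Finset (V × V)} (hT : T ⊆ E) {v v' : V} (hv : v ≠ v')
    (hno : ∀ g ∈ T, ¬ ((g.1 = v ∨ g.2 = v) ∧ (g.1 = v' ∨ g.2 = v'))) (a : U) :
    (Fintype.card U : ℝ) * (dfc W a *
      ((∑ x : V → U, (1 - W a (x v)) * ∏ g ∈ T, W (x g.1) (x g.2)) +
        ∑ x : V → U, (1 - W a (x v')) * ∏ g ∈ T, W (x g.1) (x g.2))) -
      dfc W a ^ 2 * (13 / 12 * Z W T) ≤
    (Fintype.card U : ℝ) ^ 2 * ∑ x : V → U, (1 - W a (x v)) * (1 - W a (x v')) *
      ∏ g ∈ T, W (x g.1) (x g.2) := by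
  have hN : (0 : ℝ) < (Fintype.card U : ℝ) := by exact_mod_cast Fintype.card_pos
  have hσ0 : 0 ≤ dfc W a := sum_nonneg fun y _ => by have := hW.le_one a y; linarith
  have hcomm : off (off T v) v' = off (off T v') v := by
    ext g
    simp only [mem_off]
    tauto
  have hfil : (off T v).filter (fun g => g.1 = v' ∨ g.2 = v') =
      T.filter (fun g => g.1 = v' ∨ g.2 = v') := by
    ext g
    simp only [mem_filter, mem_off]
    have := hno g
    tauto
  have hfil' : (off T v').filter (fun g => g.1 = v ∨ g.2 = v) =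
      T.filter (fun g => g.1 = v ∨ g.2 = v) := by
    ext g
    simp only [mem_filter, mem_off]
    have := hno g
    tauto
  -- the pointwise inequality
  have hpt : ∀ x : V → U, (∏ g ∈ off T v', W (x g.1) (x g.2)) +
      (∏ g ∈ off T v, W (x g.1) (x g.2)) - ∏ g ∈ off (off T v) v', W (x g.1) (x g.2) ≤
      ∏ g ∈ T, W (x g.1) (x g.2) := by
    intro x
    set p := ∏ g ∈ off (off T v) v', W (x g.1) (x g.2) with hp
    set α := ∏ g ∈ T.filter (fun g => g.1 = v ∨ g.2 = v), W (x g.1) (x g.2) with hα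
    set β := ∏ g ∈ T.filter (fun g => g.1 = v' ∨ g.2 = v'), W (x g.1) (x g.2) with hβ
    have e1 : ∏ g ∈ T, W (x g.1) (x g.2) = α * ∏ g ∈ off T v, W (x g.1) (x g.2) := by
      rw [hα]; exact (prod_filter_mul_prod_filter_not T _ _).symm
    have e2 : ∏ g ∈ off T v, W (x g.1) (x g.2) = β * p := by
      rw [hβ, ← hfil, hp]; exact (prod_filter_mul_prod_filter_not (off T v) _ _).symm
    have e3 : ∏ g ∈ off T v', W (x g.1) (x g.2) = α * p := by
      rw [hα, ← hfil', hp, hcomm]; exact (prod_filter_mul_prod_filter_not (off T v') _ _).symm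
    have hp0 : 0 ≤ p := prod_nonneg' hW.nonneg _ x
    have hα0 : 0 ≤ α := prod_nonneg' hW.nonneg _ x
    have hβ0 : 0 ≤ β := prod_nonneg' hW.nonneg _ x
    have hα1 : α ≤ 1 := prod_le_one (fun g _ => hW.nonneg _ _) fun g _ => hW.le_one _ _
    have hβ1 : β ≤ 1 := prod_le_one (fun g _ => hW.nonneg _ _) fun g _ => hW.le_one _ _
    rw [e1, e2, e3]
    nlinarith [mul_nonneg hp0 (mul_nonneg (sub_nonneg.2 hα1) (sub_nonneg.2 hβ1))]
  have hV0 : ∀ x : V → U, 0 ≤ (1 - W a (x v)) * (1 - W a (x v')) := fun x =>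
    mul_nonneg (by have := hW.le_one a (x v); linarith) (by have := hW.le_one a (x v'); linarith)
  have hsum : (∑ x : V → U, (1 - W a (x v)) * (1 - W a (x v')) *
      ∏ g ∈ off T v', W (x g.1) (x g.2)) + (∑ x : V → U, (1 - W a (x v)) * (1 - W a (x v')) *
      ∏ g ∈ off T v, W (x g.1) (x g.2)) - (∑ x : V → U, (1 - W a (x v)) * (1 - W a (x v')) *
      ∏ g ∈ off (off T v) v', W (x g.1) (x g.2)) ≤
      ∑ x : V → U, (1 - W a (x v)) * (1 - W a (x v')) * ∏ g ∈ T, W (x g.1) (x g.2) := by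
    rw [← sum_add_distrib, ← sum_sub_distrib]
    refine sum_le_sum fun x _ => ?_
    have := mul_le_mul_of_nonneg_left (hpt x) (hV0 x)
    linarith
  -- the three sums
  have i1 := indep1 v' (fun y => 1 - W a y)
    (fun x : V → U => (1 - W a (x v)) * ∏ g ∈ off T v', W (x g.1) (x g.2))
    (fun x b => by rw [prod_update W (off T v') v' off_ne x b, update_of_ne hv])
  have i2 := indep1 v (fun y => 1 - W a y)
    (fun x : V → U => (1 - W a (x v')) * ∏ g ∈ off T v, W (x g.1) (x g.2))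
    (fun x b => by rw [prod_update W (off T v) v off_ne x b, update_of_ne hv.symm])
  have i3 := indep2 hv (fun y d => (1 - W a y) * (1 - W a d))
    (fun x : V → U => ∏ g ∈ off (off T v) v', W (x g.1) (x g.2))
    (fun x b => prod_update W _ v (fun g hg => off_ne g (off_subset _ _ hg)) x b)
    (fun x b => prod_update W _ v' off_ne x b)
  have h3 : ∑ y, ∑ d, (1 - W a y) * (1 - W a d) = dfc W a ^ 2 := by
    rw [dfc, sq, sum_mul_sum]
  rw [h3] at i3
  have e1 : ∑ x : V → U, (1 - W a (x v)) * (1 - W a (x v')) *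
      ∏ g ∈ off T v', W (x g.1) (x g.2) = ∑ x : V → U, (1 - W a (x v')) *
      ((1 - W a (x v)) * ∏ g ∈ off T v', W (x g.1) (x g.2)) :=
    sum_congr rfl fun x _ => by ring
  have e2 : ∑ x : V → U, (1 - W a (x v)) * (1 - W a (x v')) *
      ∏ g ∈ off T v, W (x g.1) (x g.2) = ∑ x : V → U, (1 - W a (x v)) *
      ((1 - W a (x v')) * ∏ g ∈ off T v, W (x g.1) (x g.2)) :=
    sum_congr rfl fun x _ => by ring
  have m1 : ∑ x : V → U, (1 - W a (x v)) * ∏ g ∈ T, W (x g.1) (x g.2) ≤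
      ∑ x : V → U, (1 - W a (x v)) * ∏ g ∈ off T v', W (x g.1) (x g.2) :=
    sum_le_sum fun x _ => mul_le_mul_of_nonneg_left
      (prod_mono hW.nonneg hW.le_one (off_subset T v') x)
      (by have := hW.le_one a (x v); linarith)
  have m2 : ∑ x : V → U, (1 - W a (x v')) * ∏ g ∈ T, W (x g.1) (x g.2) ≤
      ∑ x : V → U, (1 - W a (x v')) * ∏ g ∈ off T v, W (x g.1) (x g.2) :=
    sum_le_sum fun x _ => mul_le_mul_of_nonneg_left
      (prod_mono hW.nonneg hW.le_one (off_subset T v) x)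
      (by have := hW.le_one a (x v'); linarith)
  have hgr : Z W (off (off T v) v') ≤ 13 / 12 * Z W T := by
    have hk : (T \ off (off T v) v').card ≤ 2 * D := by
      have hsub : T \ off (off T v) v' ⊆ at_ E v ∪ at_ E v' := by
        intro g hg
        rw [mem_sdiff, mem_off, mem_off] at hg
        rw [mem_union, at_, at_, mem_filter, mem_filter]
        have h1 := hg.1
        have h2 := hT h1
        have h3 := hg.2
        tauto
      have h5 := (card_le_card hsub).trans (card_union_le _ _)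
      have h6 := hE.deg v
      have h7 := hE.deg v'
      omega
    have h := grow3 hE hW hε0 hD hε2 hT ((off_subset _ _).trans (off_subset _ _)) hk
    push_cast at h
    have hZ := Z_nonneg hW.nonneg (off (off T v) v')
    have h8 : (49:ℝ) / 50 ≤ 1 - 2 * (2 * (D:ℝ)) * ε := by nlinarith
    have h9 := mul_le_mul_of_nonneg_right h8 hZ
    linarith
  have hgr2 := mul_le_mul_of_nonneg_left hgr (sq_nonneg (dfc W a))
  have k1 := mul_le_mul_of_nonneg_left m1 (mul_nonneg hN.le hσ0)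
  have k2 := mul_le_mul_of_nonneg_left m2 (mul_nonneg hN.le hσ0)
  have hfin := mul_le_mul_of_nonneg_left hsum (by positivity : (0:ℝ) ≤ (Fintype.card U : ℝ) ^ 2)
  rw [mul_sub, mul_add, e1, e2] at hfin
  have j1 : (Fintype.card U : ℝ) ^ 2 * ∑ x : V → U, (1 - W a (x v')) *
      ((1 - W a (x v)) * ∏ g ∈ off T v', W (x g.1) (x g.2)) = (Fintype.card U : ℝ) * dfc W a *
      ∑ x : V → U, (1 - W a (x v)) * ∏ g ∈ off T v', W (x g.1) (x g.2) := by
    calc _ = (Fintype.card U : ℝ) * ((Fintype.card U : ℝ) * ∑ x : V → U, (1 - W a (x v')) *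
      ((1 - W a (x v)) * ∏ g ∈ off T v', W (x g.1) (x g.2))) := by ring
      _ = (Fintype.card U : ℝ) * ((∑ y, (1 - W a y)) * ∑ x : V → U, (1 - W a (x v)) *
        ∏ g ∈ off T v', W (x g.1) (x g.2)) := by rw [i1]
      _ = _ := by rw [dfc]; ring
  have j2 : (Fintype.card U : ℝ) ^ 2 * ∑ x : V → U, (1 - W a (x v)) *
      ((1 - W a (x v')) * ∏ g ∈ off T v, W (x g.1) (x g.2)) = (Fintype.card U : ℝ) * dfc W a *
      ∑ x : V → U, (1 - W a (x v')) * ∏ g ∈ off T v, W (x g.1) (x g.2) := by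
    calc _ = (Fintype.card U : ℝ) * ((Fintype.card U : ℝ) * ∑ x : V → U, (1 - W a (x v)) *
      ((1 - W a (x v')) * ∏ g ∈ off T v, W (x g.1) (x g.2))) := by ring
      _ = (Fintype.card U : ℝ) * ((∑ y, (1 - W a y)) * ∑ x : V → U, (1 - W a (x v')) *
        ∏ g ∈ off T v, W (x g.1) (x g.2)) := by rw [i2]
      _ = _ := by rw [dfc]; ring
  have j3 : (Fintype.card U : ℝ) ^ 2 * ∑ x : V → U, (1 - W a (x v)) * (1 - W a (x v')) *
      ∏ g ∈ off (off T v) v', W (x g.1) (x g.2) = dfc W a ^ 2 * Z W (off (off T v) v') := i3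
  rw [j1, j2, j3] at hfin
  linarith

end bounds

end Vale.Agent.P050.MinRed
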