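import Vale.Agent.P050.R3.H904.Rows3

set_option linter.all false

/-!
Sharpest form of M10, part 2: third moments, the cubic Bonferroni inequality, the contribution
of one vertex.
-/

open Finset Function

namespace Vale.Agent.P050.MinRed

variable {V U : Type} [Fintype V] [DecidableEq V] [Fintype U]
variable {E : Finset (V × V)} {D : ℕ} {W : U → U → ℝ} {ε : ℝ}

/-- cubic Bonferroni inequality with a scaling parameter -/
theorem bonf {ι : Type} [DecidableEq ι] (F : Finset ι) (y : ι → ℝ) (h0 : ∀ i ∈ F, 0 ≤ y i)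
    (h1 : ∀ i ∈ F, y i ≤ 1) {t : ℝ} (ht0 : 0 ≤ t) (ht1 : t ≤ 1) :
    ∑ i ∈ F, y i * ∏ j ∈ F.erase i, (1 - y j) ≤ ∑ i ∈ F, y i -
      t * ∑ i ∈ F, ∑ j ∈ F.erase i, y i * y j +
      1 / 2 * t ^ 2 * ∑ i ∈ F, ∑ j ∈ F.erase i, ∑ k ∈ (F.erase i).erase j, y i * y j * y k := by
  have hpt : ∀ i ∈ F, y i * ∏ j ∈ F.erase i, (1 - y j) ≤ y i - t * ∑ j ∈ F.erase i, y i * y j +
      1 / 2 * t ^ 2 * ∑ j ∈ F.erase i, ∑ k ∈ (F.erase i).erase j, y i * y j * y k := by
    intro i hi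
    have hj0 : ∀ j ∈ F.erase i, 0 ≤ y j := fun j hj => h0 j (mem_of_mem_erase hj)
    have hj1 : ∀ j ∈ F.erase i, y j ≤ 1 := fun j hj => h1 j (mem_of_mem_erase hj)
    have a1 : ∏ j ∈ F.erase i, (1 - y j) ≤ ∏ j ∈ F.erase i, (1 - t * y j) := by
      refine prod_le_prod (fun j hj => by linarith [hj1 j hj]) fun j hj => ?_
      have := mul_le_mul_of_nonneg_right ht1 (hj0 j hj)
      linarith
    have a2 := prod_le_two (F.erase i) (fun j => t * y j)
      (fun j hj => mul_nonneg ht0 (hj0 j hj))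
      (fun j hj => by
        have := mul_le_mul ht1 (hj1 j hj) (hj0 j hj) zero_le_one
        simpa using this)
    have a3 := mul_le_mul_of_nonneg_left (a1.trans a2) (h0 i hi)
    refine a3.trans (le_of_eq ?_)
    have b1 : ∑ j ∈ F.erase i, t * y j = t * ∑ j ∈ F.erase i, y j := by rw [mul_sum]
    have b2 : ∑ j ∈ F.erase i, ∑ k ∈ (F.erase i).erase j, t * y j * (t * y k) =
        t ^ 2 * ∑ j ∈ F.erase i, ∑ k ∈ (F.erase i).erase j, y j * y k := by
      rw [mul_sum]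
      refine sum_congr rfl fun j _ => ?_
      rw [mul_sum]
      exact sum_congr rfl fun k _ => by ring
    have b3 : ∑ j ∈ F.erase i, y i * y j = y i * ∑ j ∈ F.erase i, y j := by rw [mul_sum]
    have b4 : ∑ j ∈ F.erase i, ∑ k ∈ (F.erase i).erase j, y i * y j * y k =
        y i * ∑ j ∈ F.erase i, ∑ k ∈ (F.erase i).erase j, y j * y k := by
      rw [mul_sum]
      refine sum_congr rfl fun j _ => ?_
      rw [mul_sum]
      exact sum_congr rfl fun k _ => by ring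
    rw [b1, b2, b3, b4]
    ring
  refine (sum_le_sum hpt).trans (le_of_eq ?_)
  rw [sum_add_distrib, sum_sub_distrib, ← mul_sum, ← mul_sum]

section bounds

variable [Nonempty U]

/-- third moments, upper bound -/
theorem t_up (hE : Edges E D) (hW : Ker W ε) (hε0 : 0 ≤ ε) (hD : 200 * D * ε ≤ 1)
    (hε2 : 2 * ε ≤ 1) {T : Finset (V × V)} (hT : T ⊆ E) {v₁ v₂ v₃ : V} (h12 : v₁ ≠ v₂)
    (h13 : v₁ ≠ v₃) (h23 : v₂ ≠ v₃) (a : U) :
    (Fintype.card U : ℝ) ^ 3 * ∑ x : V → U, (1 - W a (x v₁)) * (1 - W a (x v₂)) *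
      (1 - W a (x v₃)) * ∏ g ∈ T, W (x g.1) (x g.2) ≤ dfc W a ^ 3 * (4 / 3 * Z W T) := by
  have hN : (0 : ℝ) < (Fintype.card U : ℝ) := by exact_mod_cast Fintype.card_pos
  have hσ0 : 0 ≤ dfc W a := sum_nonneg fun y _ => by have := hW.le_one a y; linarith
  set T' := off (off (off T v₁) v₂) v₃ with hT'
  have hT'T : T' ⊆ T := ((off_subset _ _).trans (off_subset _ _)).trans (off_subset _ _)
  have u3 : ∀ g ∈ T', g.1 ≠ v₃ ∧ g.2 ≠ v₃ := off_ne
  have u2 : ∀ g ∈ T', g.1 ≠ v₂ ∧ g.2 ≠ v₂ := fun g hg => off_ne g (off_subset _ _ hg)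
  have u1 : ∀ g ∈ T', g.1 ≠ v₁ ∧ g.2 ≠ v₁ := fun g hg =>
    off_ne g (off_subset _ _ (off_subset _ _ hg))
  have h1 : ∑ x : V → U, (1 - W a (x v₁)) * (1 - W a (x v₂)) * (1 - W a (x v₃)) *
      ∏ g ∈ T, W (x g.1) (x g.2) ≤ ∑ x : V → U, (1 - W a (x v₁)) * ((1 - W a (x v₂)) *
      ((1 - W a (x v₃)) * ∏ g ∈ T', W (x g.1) (x g.2))) := by
    refine sum_le_sum fun x _ => ?_
    have p1 : 0 ≤ 1 - W a (x v₁) := by have := hW.le_one a (x v₁); linarith
    have p2 : 0 ≤ 1 - W a (x v₂) := by have := hW.le_one a (x v₂); linarith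
    have p3 : 0 ≤ 1 - W a (x v₃) := by have := hW.le_one a (x v₃); linarith
    calc (1 - W a (x v₁)) * (1 - W a (x v₂)) * (1 - W a (x v₃)) * ∏ g ∈ T, W (x g.1) (x g.2)
        ≤ (1 - W a (x v₁)) * (1 - W a (x v₂)) * (1 - W a (x v₃)) *
          ∏ g ∈ T', W (x g.1) (x g.2) :=
          mul_le_mul_of_nonneg_left (prod_mono hW.nonneg hW.le_one hT'T x) (by positivity)
      _ = _ := by ring
  have i1 := indep1 v₁ (fun y => 1 - W a y) (fun x : V → U => (1 - W a (x v₂)) *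
      ((1 - W a (x v₃)) * ∏ g ∈ T', W (x g.1) (x g.2)))
    (fun x b => by rw [prod_update W T' v₁ u1 x b, update_of_ne h12.symm, update_of_ne h13.symm])
  have i2 := indep1 v₂ (fun y => 1 - W a y) (fun x : V → U =>
      (1 - W a (x v₃)) * ∏ g ∈ T', W (x g.1) (x g.2))
    (fun x b => by rw [prod_update W T' v₂ u2 x b, update_of_ne h23.symm])
  have i3 := indep1 v₃ (fun y => 1 - W a y) (fun x : V → U => ∏ g ∈ T', W (x g.1) (x g.2))
    (fun x b => prod_update W T' v₃ u3 x b)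
  have hgr : Z W T' ≤ 4 / 3 * Z W T := by
    have hk : (T \ T').card ≤ 3 * D := by
      have hsub : T \ T' ⊆ (at_ E v₁ ∪ at_ E v₂) ∪ at_ E v₃ := by
        intro g hg
        rw [mem_sdiff, hT', mem_off, mem_off, mem_off] at hg
        rw [mem_union, mem_union, at_, at_, at_, mem_filter, mem_filter, mem_filter]
        have h1 := hg.1
        have h2 := hT h1
        have h3 := hg.2
        tauto
      have h4 := (card_le_card hsub).trans (card_union_le _ _)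
      have h5 := card_union_le (at_ E v₁) (at_ E v₂)
      have h6 := hE.deg v₁
      have h7 := hE.deg v₂
      have h8 := hE.deg v₃
      omega
    have h := grow3 hE hW hε0 hD hε2 hT hT'T hk
    push_cast at h
    have hZ := Z_nonneg hW.nonneg T'
    have h8 : (3:ℝ) / 4 ≤ 1 - 2 * (3 * (D:ℝ)) * ε := by nlinarith
    have h9 := mul_le_mul_of_nonneg_right h8 hZ
    linarith
  have hz : ∑ x : V → U, ∏ g ∈ T', W (x g.1) (x g.2) = Z W T' := rfl
  have hd : ∑ y, (1 - W a y) = dfc W a := rfl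
  rw [hz, hd] at i3
  rw [hd] at i1 i2
  calc (Fintype.card U : ℝ) ^ 3 * ∑ x : V → U, (1 - W a (x v₁)) * (1 - W a (x v₂)) *
        (1 - W a (x v₃)) * ∏ g ∈ T, W (x g.1) (x g.2)
      ≤ (Fintype.card U : ℝ) ^ 3 * ∑ x : V → U, (1 - W a (x v₁)) * ((1 - W a (x v₂)) *
        ((1 - W a (x v₃)) * ∏ g ∈ T', W (x g.1) (x g.2))) :=
        mul_le_mul_of_nonneg_left h1 (by positivity)
    _ = (Fintype.card U : ℝ) ^ 2 * ((Fintype.card U : ℝ) * ∑ x : V → U, (1 - W a (x v₁)) *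
        ((1 - W a (x v₂)) * ((1 - W a (x v₃)) * ∏ g ∈ T', W (x g.1) (x g.2)))) := by ring
    _ = (Fintype.card U : ℝ) * dfc W a * ((Fintype.card U : ℝ) * ∑ x : V → U,
        (1 - W a (x v₂)) * ((1 - W a (x v₃)) * ∏ g ∈ T', W (x g.1) (x g.2))) := by
        rw [i1]; ring
    _ = dfc W a ^ 2 * ((Fintype.card U : ℝ) * ∑ x : V → U, (1 - W a (x v₃)) *
        ∏ g ∈ T', W (x g.1) (x g.2)) := by rw [i2]; ring
    _ = dfc W a ^ 3 * Z W T' := by rw [i3]; ring
    _ ≤ dfc W a ^ 3 * (4 / 3 * Z W T) := mul_le_mul_of_nonneg_left hgr (pow_nonneg hσ0 3)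

/-- the arithmetic of the contribution of one vertex -/
theorem assemble {ι : Type} [DecidableEq ι] (F : Finset ι) (Y w : ι → ℝ) (P : ι → ι → ℝ)
    (R : ι → ι → ι → ℝ) {s t z ε δ q : ℝ} (hs0 : 0 ≤ s) (ht0 : 0 ≤ t) (ht1 : t ≤ 1)
    (hz : 0 ≤ z) (hε0 : 0 ≤ ε) (hw : ∀ f ∈ F, 0 ≤ w f) (hδ : (F.card : ℝ) ≤ δ)
    (hts : t * s * δ ≤ 1 / 4)
    (hbon : q ≤ ∑ f ∈ F, Y f - t * ∑ f ∈ F, ∑ f' ∈ F.erase f, P f f' +
      1 / 2 * t ^ 2 * ∑ f ∈ F, ∑ f' ∈ F.erase f, ∑ f'' ∈ (F.erase f).erase f', R f f' f'')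
    (hYup : ∀ f ∈ F, Y f ≤ s * ((1 + 4 * w f * ε) * z))
    (hPlow : ∀ f ∈ F, ∀ f' ∈ F.erase f, s * (Y f + Y f') - s ^ 2 * (13 / 12 * z) ≤ P f f')
    (hRup : ∀ f ∈ F, ∀ f' ∈ F.erase f, ∀ f'' ∈ (F.erase f).erase f', R f f' f'' ≤
      s ^ 3 * (4 / 3 * z)) :
    q ≤ (s * (F.card + 4 * ε * ∑ f ∈ F, w f) -
      3 / 4 * t * s ^ 2 * (F.card * (F.card - 1))) * z := by
  set d : ℝ := (F.card : ℝ) with hd
  have hd0 : 0 ≤ d := Nat.cast_nonneg _
  have hZs : 0 ≤ s * z := mul_nonneg hs0 hz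
  have hcard : ∀ f ∈ F, ((F.erase f).card : ℝ) = d - 1 := by
    intro f hf
    rw [card_erase_of_mem hf, Nat.cast_sub (card_pos.2 ⟨f, hf⟩), Nat.cast_one]
  -- sum of the second moments
  have hSP : 2 * s * (d - 1) * ∑ f ∈ F, Y f - s ^ 2 * (13 / 12 * z) * (d * (d - 1)) ≤
      ∑ f ∈ F, ∑ f' ∈ F.erase f, P f f' := by
    refine le_trans (le_of_eq ?_) (sum_le_sum fun f hf => sum_le_sum fun f' hf' =>
      hPlow f hf f' hf')
    have e1 : ∀ f ∈ F, ∑ f' ∈ F.erase f, (s * (Y f + Y f') - s ^ 2 * (13 / 12 * z)) =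
        (d - 1) * (s * Y f - s ^ 2 * (13 / 12 * z)) + s * (∑ f' ∈ F, Y f' - Y f) := by
      intro f hf
      have h3 : ∑ f' ∈ F.erase f, Y f' = ∑ f' ∈ F, Y f' - Y f := by
        rw [← add_sum_erase F Y hf]; ring
      have h4 : ∀ f' ∈ F.erase f, s * (Y f + Y f') - s ^ 2 * (13 / 12 * z) =
          (s * Y f - s ^ 2 * (13 / 12 * z)) + s * Y f' := fun f' _ => by ring
      rw [sum_congr rfl h4, sum_add_distrib, sum_const, nsmul_eq_mul, hcard f hf, ← mul_sum, h3]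
    rw [sum_congr rfl e1, sum_add_distrib, ← mul_sum, ← mul_sum, sum_sub_distrib,
      sum_sub_distrib, sum_const, sum_const, nsmul_eq_mul, nsmul_eq_mul, ← mul_sum]
    ring
  -- sum of the third moments
  have hSR : ∑ f ∈ F, ∑ f' ∈ F.erase f, ∑ f'' ∈ (F.erase f).erase f', R f f' f'' ≤
      d * (d - 1) * (d * (s ^ 3 * (4 / 3 * z))) := by
    have hs3 : 0 ≤ s ^ 3 * (4 / 3 * z) := by positivity
    have e1 : ∀ f ∈ F, ∑ f' ∈ F.erase f, ∑ f'' ∈ (F.erase f).erase f', R f f' f'' ≤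
        (d - 1) * (d * (s ^ 3 * (4 / 3 * z))) := by
      intro f hf
      rw [← hcard f hf, ← nsmul_eq_mul, ← sum_const]
      refine sum_le_sum fun f' hf' => ?_
      refine (sum_le_sum fun f'' hf'' => hRup f hf f' hf' f'' hf'').trans ?_
      rw [sum_const, nsmul_eq_mul]
      refine mul_le_mul_of_nonneg_right ?_ hs3
      rw [hd]
      exact_mod_cast (card_le_card ((erase_subset _ _).trans (erase_subset _ _)))
    refine (sum_le_sum e1).trans (le_of_eq ?_)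
    rw [sum_const, nsmul_eq_mul]
    ring
  have hSY : ∑ f ∈ F, Y f ≤ s * (d + 4 * ε * ∑ f ∈ F, w f) * z := by
    refine (sum_le_sum hYup).trans (le_of_eq ?_)
    rw [← mul_sum, ← sum_mul, sum_add_distrib, sum_const, nsmul_eq_mul, mul_one]
    have : ∑ f ∈ F, 4 * w f * ε = 4 * ε * ∑ f ∈ F, w f := by
      rw [mul_sum]
      exact sum_congr rfl fun f _ => by ring
    rw [this]
    ring
  have hSd : 0 ≤ ∑ f ∈ F, w f := sum_nonneg hw
  rcases Nat.eq_zero_or_pos F.card with h0 | h0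
  · -- no edges
    have hF0 : F = ∅ := card_eq_zero.1 h0
    have hd' : d = 0 := by rw [hd, h0]; exact Nat.cast_zero
    rw [hF0] at hbon
    rw [hd', hF0]
    simp only [sum_empty] at hbon ⊢
    linarith
  have hd1 : 1 ≤ d := by rw [hd]; exact_mod_cast h0
  clear_value d
  set Sd := ∑ f ∈ F, w f with hSddef
  clear_value Sd
  set SY := ∑ f ∈ F, Y f with hSYdef
  clear_value SY
  set SP := ∑ f ∈ F, ∑ f' ∈ F.erase f, P f f' with hSPdef
  clear_value SP
  set SR := ∑ f ∈ F, ∑ f' ∈ F.erase f, ∑ f'' ∈ (F.erase f).erase f', R f f' f'' with hSRdef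
  clear_value SR
  have htsd : t * s * d ≤ 1 / 4 := by
    have : t * s * d ≤ t * s * δ := mul_le_mul_of_nonneg_left hδ (by positivity)
    linarith
  have hts0 : 0 ≤ t * s := mul_nonneg ht0 hs0
  have hdd : 0 ≤ d * (d - 1) := mul_nonneg hd0 (by linarith)
  -- assembly
  have k1 := mul_le_mul_of_nonneg_left hSP ht0
  have k2 := mul_le_mul_of_nonneg_left hSR (by positivity : (0:ℝ) ≤ 1 / 2 * t ^ 2)
  have hco : 0 ≤ 1 - 2 * t * s * (d - 1) := by nlinarith
  have k3 := mul_le_mul_of_nonneg_left hSY hco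
  have k4 : 1 / 2 * t ^ 2 * (d * (d - 1) * (d * (s ^ 3 * (4 / 3 * z)))) ≤
      1 / 6 * t * s ^ 2 * (d * (d - 1)) * z := by
    have h5 : 0 ≤ t * s ^ 2 * (d * (d - 1)) * z := by positivity
    have h6 := mul_le_mul_of_nonneg_right htsd h5
    have e1 : 1 / 2 * t ^ 2 * (d * (d - 1) * (d * (s ^ 3 * (4 / 3 * z)))) =
        2 / 3 * (t * s * d * (t * s ^ 2 * (d * (d - 1)) * z)) := by ring
    have e2 : 1 / 6 * t * s ^ 2 * (d * (d - 1)) * z =
        2 / 3 * (1 / 4 * (t * s ^ 2 * (d * (d - 1)) * z)) := by ring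
    rw [e1, e2]
    linarith
  have k5 : 0 ≤ 2 * t * s * (d - 1) * (s * (4 * ε * Sd) * z) := by
    have : 0 ≤ d - 1 := by linarith
    positivity
  have k6 : (1 - 2 * t * s * (d - 1)) * (s * (d + 4 * ε * Sd) * z) ≤
      s * (d + 4 * ε * Sd) * z - 2 * t * s ^ 2 * (d * (d - 1)) * z := by
    have : (1 - 2 * t * s * (d - 1)) * (s * (d + 4 * ε * Sd) * z) =
      s * (d + 4 * ε * Sd) * z - 2 * t * s ^ 2 * (d * (d - 1)) * z -
        2 * t * s * (d - 1) * (s * (4 * ε * Sd) * z) := by ring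
    linarith
  calc q ≤ SY - t * SP + 1 / 2 * t ^ 2 * SR := hbon
    _ ≤ (1 - 2 * t * s * (d - 1)) * SY + t * (s ^ 2 * (13 / 12 * z) * (d * (d - 1))) +
        1 / 6 * t * s ^ 2 * (d * (d - 1)) * z := by
        have h7 := k2.trans k4
        have h8 : t * (2 * s * (d - 1) * SY - s ^ 2 * (13 / 12 * z) * (d * (d - 1))) =
          2 * t * s * (d - 1) * SY - t * (s ^ 2 * (13 / 12 * z) * (d * (d - 1))) := by ring
        rw [h8] at k1
        linarith
    _ ≤ (s * (d + 4 * ε * Sd) * z - 2 * t * s ^ 2 * (d * (d - 1)) * z) +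
        t * (s ^ 2 * (13 / 12 * z) * (d * (d - 1))) +
        1 / 6 * t * s ^ 2 * (d * (d - 1)) * z := by
        have := k3.trans k6
        linarith
    _ = _ := by ring

/-- the sum over the edges at `u` of the probability that exactly this edge is missing -/
noncomputable def Q (W : U → U → ℝ) (E : Finset (V × V)) (a : U) (u : V) : ℝ :=
  ∑ f ∈ at_ E u, ∑ x : V → U, (1 - W a (x (oth u f))) *
    (∏ g ∈ (at_ E u).erase f, W a (x (oth u g))) * ∏ g ∈ off E u, W (x g.1) (x g.2)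

omit [Nonempty U] in
theorem q_bon (hW : Ker W ε) (F T : Finset (V × V)) (a : U) (u : V) {t : ℝ}
    (ht0 : 0 ≤ t) (ht1 : t ≤ 1) :
    ∑ f ∈ F, ∑ x : V → U, (1 - W a (x (oth u f))) *
      (∏ g ∈ F.erase f, W a (x (oth u g))) * ∏ g ∈ T, W (x g.1) (x g.2) ≤
    ∑ f ∈ F, (∑ x : V → U, (1 - W a (x (oth u f))) * ∏ g ∈ T, W (x g.1) (x g.2)) -
    t * ∑ f ∈ F, ∑ f' ∈ F.erase f, (∑ x : V → U, (1 - W a (x (oth u f))) *
      (1 - W a (x (oth u f'))) * ∏ g ∈ T, W (x g.1) (x g.2)) +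
    1 / 2 * t ^ 2 * ∑ f ∈ F, ∑ f' ∈ F.erase f, ∑ f'' ∈ (F.erase f).erase f',
      (∑ x : V → U, (1 - W a (x (oth u f))) *
      (1 - W a (x (oth u f'))) * (1 - W a (x (oth u f''))) * ∏ g ∈ T, W (x g.1) (x g.2)) := by
  have hpt : ∀ x : V → U, (∑ f ∈ F, (1 - W a (x (oth u f))) *
      ∏ g ∈ F.erase f, W a (x (oth u g))) * ∏ g ∈ T, W (x g.1) (x g.2) ≤
      (∑ f ∈ F, (1 - W a (x (oth u f))) - t * ∑ f ∈ F, ∑ f' ∈ F.erase f,
        (1 - W a (x (oth u f))) * (1 - W a (x (oth u f'))) + 1 / 2 * t ^ 2 * ∑ f ∈ F,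
        ∑ f' ∈ F.erase f, ∑ f'' ∈ (F.erase f).erase f', (1 - W a (x (oth u f))) *
        (1 - W a (x (oth u f'))) * (1 - W a (x (oth u f'')))) *
        ∏ g ∈ T, W (x g.1) (x g.2) := by
    intro x
    refine mul_le_mul_of_nonneg_right ?_ (prod_nonneg' hW.nonneg T x)
    have := bonf F (fun f => 1 - W a (x (oth u f)))
      (fun f _ => by have := hW.le_one a (x (oth u f)); linarith)
      (fun f _ => by have := hW.nonneg a (x (oth u f)); linarith) ht0 ht1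
    simpa only [sub_sub_cancel] using this
  have hsum := sum_le_sum fun (x : V → U) (_ : x ∈ (univ : Finset (V → U))) => hpt x
  have e1 : ∑ f ∈ F, ∑ x : V → U, (1 - W a (x (oth u f))) *
      (∏ g ∈ F.erase f, W a (x (oth u g))) * ∏ g ∈ T, W (x g.1) (x g.2) =
      ∑ x : V → U, (∑ f ∈ F, (1 - W a (x (oth u f))) *
      ∏ g ∈ F.erase f, W a (x (oth u g))) * ∏ g ∈ T, W (x g.1) (x g.2) := by
    rw [sum_comm]
    exact sum_congr rfl fun x _ => by rw [sum_mul]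
  rw [e1]
  refine hsum.trans (le_of_eq ?_)
  have s1 : ∑ f ∈ F, (∑ x : V → U, (1 - W a (x (oth u f))) * ∏ g ∈ T, W (x g.1) (x g.2)) =
      ∑ x : V → U, (∑ f ∈ F, (1 - W a (x (oth u f)))) * ∏ g ∈ T, W (x g.1) (x g.2) := by
    rw [sum_comm]
    exact sum_congr rfl fun x _ => by rw [sum_mul]
  have s2 : ∑ f ∈ F, ∑ f' ∈ F.erase f, (∑ x : V → U, (1 - W a (x (oth u f))) *
      (1 - W a (x (oth u f'))) * ∏ g ∈ T, W (x g.1) (x g.2)) =
      ∑ x : V → U, (∑ f ∈ F, ∑ f' ∈ F.erase f,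
      (1 - W a (x (oth u f))) * (1 - W a (x (oth u f')))) * ∏ g ∈ T, W (x g.1) (x g.2) := by
    simp only [sum_mul]
    rw [sum_comm (s := univ)]
    refine sum_congr rfl fun f _ => ?_
    rw [sum_comm]
  have s3 : ∑ f ∈ F, ∑ f' ∈ F.erase f, ∑ f'' ∈ (F.erase f).erase f',
      (∑ x : V → U, (1 - W a (x (oth u f))) *
      (1 - W a (x (oth u f'))) * (1 - W a (x (oth u f''))) * ∏ g ∈ T, W (x g.1) (x g.2)) =
      ∑ x : V → U, (∑ f ∈ F, ∑ f' ∈ F.erase f, ∑ f'' ∈ (F.erase f).erase f',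
      (1 - W a (x (oth u f))) * (1 - W a (x (oth u f'))) * (1 - W a (x (oth u f'')))) *
      ∏ g ∈ T, W (x g.1) (x g.2) := by
    simp only [sum_mul]
    rw [sum_comm (s := univ)]
    refine sum_congr rfl fun f _ => ?_
    rw [sum_comm (s := univ)]
    refine sum_congr rfl fun f' _ => ?_
    rw [sum_comm]
  rw [s1, s2, s3, mul_sum, mul_sum, ← sum_sub_distrib, ← sum_add_distrib]
  exact sum_congr rfl fun x _ => by ring

/-- the contribution of one vertex -/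
theorem q_up (hE : Edges E D) {c : V → Bool} (hc : ∀ e ∈ E, c e.1 ≠ c e.2) (hW : Ker W ε)
    (hε0 : 0 ≤ ε) (hD : 200 * D * ε ≤ 1) (hε2 : 2 * ε ≤ 1) (a : U) (u : V) {s t : ℝ}
    (hs : dfc W a = s * Fintype.card U) (hs0 : 0 ≤ s) (ht0 : 0 ≤ t) (ht1 : t ≤ 1)
    (hts : t * s * D ≤ 1 / 4) :
    Q W E a u ≤ (s * ((at_ E u).card + 4 * ε * ∑ f ∈ at_ E u, ((at_ E (oth u f)).card : ℝ)) -
      3 / 4 * t * s ^ 2 * ((at_ E u).card * ((at_ E u).card - 1))) * Z W (off E u) := by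
  have hN : (0 : ℝ) < (Fintype.card U : ℝ) := by exact_mod_cast Fintype.card_pos
  have hTE : off E u ⊆ E := off_subset _ _
  -- two edges at `u` have different other ends, which are not adjacent
  have hinj : ∀ f ∈ at_ E u, ∀ f' ∈ at_ E u, f ≠ f' → oth u f ≠ oth u f' := by
    intro f hf f' hf' hne h
    exact hne (at_oth_inj hE u (mem_coe.2 hf) (mem_coe.2 hf') h)
  have hcol : ∀ f ∈ at_ E u, c (oth u f) ≠ c u := by
    intro f hf
    rw [at_, mem_filter] at hf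
    have h1 := hc f hf.1
    rcases oth_spec hf.2 with h | h
    · rw [h] at h1
      exact h1.symm
    · rw [h] at h1
      exact h1
  have hno : ∀ f ∈ at_ E u, ∀ f' ∈ at_ E u, f ≠ f' → ∀ g ∈ off E u,
      ¬ ((g.1 = oth u f ∨ g.2 = oth u f) ∧ (g.1 = oth u f' ∨ g.2 = oth u f')) := by
    intro f hf f' hf' hne g hg ⟨h1, h2⟩
    have hvv := hinj f hf f' hf' hne
    have h3 := hcol f hf
    have h4 := hcol f' hf'
    have h5 := hc g (hTE hg)
    have h6 : c (oth u f) = c (oth u f') := by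
      cases h7 : c (oth u f) <;> cases h8 : c (oth u f') <;> cases h9 : c u <;> simp_all
    rcases h1 with h1 | h1 <;> rcases h2 with h2 | h2
    · exact hvv (h1.symm.trans h2)
    · rw [h1, h2] at h5; exact h5 h6
    · rw [h1, h2] at h5; exact h5 h6.symm
    · exact hvv (h1.symm.trans h2)
  refine assemble (at_ E u) _ (fun f => ((at_ E (oth u f)).card : ℝ)) _ _ hs0 ht0 ht1
    (Z_nonneg hW.nonneg (off E u)) hε0 (fun f _ => Nat.cast_nonneg _)
    (by exact_mod_cast hE.deg u) hts (q_bon hW (at_ E u) (off E u) a u ht0 ht1) ?_ ?_ ?_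
  · intro f _
    have := y_up hE hW hε0 hD hε2 hTE (oth u f) a
    rw [hs] at this
    refine le_of_mul_le_mul_left (this.trans (le_of_eq ?_)) hN
    ring
  · intro f hf f' hf'
    rw [mem_erase] at hf'
    have := p_low hE hW hε0 hD hε2 hTE (hinj f hf f' hf'.2 hf'.1.symm)
      (hno f hf f' hf'.2 hf'.1.symm) a
    rw [hs] at this
    have h2 : (0:ℝ) < (Fintype.card U : ℝ) ^ 2 := by positivity
    refine le_of_mul_le_mul_left (le_trans (le_of_eq ?_) this) h2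
    ring
  · intro f hf f' hf' f'' hf''
    rw [mem_erase, mem_erase] at hf''
    rw [mem_erase] at hf'
    have := t_up hE hW hε0 hD hε2 hTE (hinj f hf f' hf'.2 hf'.1.symm)
      (hinj f hf f'' hf''.2.2 hf''.2.1.symm) (hinj f' hf'.2 f'' hf''.2.2 hf''.1.symm) a
    rw [hs] at this
    have h2 : (0:ℝ) < (Fintype.card U : ℝ) ^ 3 := by positivity
    refine le_of_mul_le_mul_left (this.trans (le_of_eq ?_)) h2
    ring

end bounds

end Vale.Agent.P050.MinRed
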